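import Vale.Agent.P286EB.IF

/-!
# The rule of Cramer
-/

set_option linter.all false

namespace Vale.Agent.P286EB

open Matrix Vale.Agent.P286 Vale.Agent.P286E Vale.Agent.P286EN
open Vale.Agent.P286ER (On)

noncomputable section

attribute [-instance] HahnSeries.powerSeriesAlgebra

variable {A : Type} [CommRing A] {N : ℕ} {v : ℕ × Fin N → Fin N → Ls A} {s : Finset (ℕ × Fin N)}

/-- The selection of the rows of level `0`. -/
def Big.P (h : Big v s) : Matrix (Fin N) s (Ls A) := of fun i q => if q = h.ι i then 1 else 0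

/-- The rows of positive level. -/
def Kc (v : ℕ × Fin N → Fin N → Ls A) (s : Finset (ℕ × Fin N)) : Matrix s s A :=
  of fun q p => if q.1.1 = 0 then 0 else pol N A (v p) q

/-- The projector on the positive levels. -/
def Hh (A : Type) [CommRing A] (s : Finset (ℕ × Fin N)) : Matrix s s A :=
  diagonal fun q => if q.1.1 = 0 then 0 else 1

theorem Big.ι0 (h : Big v s) (i : Fin N) : (h.ι i).1.1 = 0 := rfl

theorem Kc_apply (q p : s) : Kc v s q p = if q.1.1 = 0 then 0 else pol N A (v p) q := rfl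

theorem Big.P_mul {σ : Type} (h : Big v s) (B : Matrix s σ (Ls A)) (i : Fin N) (p : σ) :
    (h.P * B) i p = B (h.ι i) p := by
  rw [Matrix.mul_apply, Finset.sum_eq_single (h.ι i)]
  · rw [Big.P, of_apply, if_pos rfl, one_mul]
  · intro q _ hq
    rw [Big.P, of_apply, if_neg hq, zero_mul]
  · exact fun e => absurd (Finset.mem_univ _) e

theorem Big.Pt_ι (h : Big v s) (w : Fin N → Ls A) (i : Fin N) : (h.Pᵀ *ᵥ w) (h.ι i) = w i := by
  change ∑ j, h.P j (h.ι i) * w j = _
  rw [Finset.sum_eq_single i]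
  · rw [Big.P, of_apply, if_pos rfl, one_mul]
  · intro j _ hj
    rw [Big.P, of_apply, if_neg fun e => hj (h.ι.injective e).symm, zero_mul]
  · exact fun e => absurd (Finset.mem_univ _) e

theorem Big.Pt_ne (h : Big v s) (w : Fin N → Ls A) {q : s} (hq : q.1.1 ≠ 0) :
    (h.Pᵀ *ᵥ w) q = 0 := by
  change ∑ j, h.P j q * w j = _
  refine Finset.sum_eq_zero fun j _ => ?_
  rw [Big.P, of_apply, if_neg fun e : q = h.ι j => hq (by rw [e]; rfl), zero_mul]

theorem Big.cases (h : Big v s) (q : s) : (∃ i, q = h.ι i) ∨ q.1.1 ≠ 0 := by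
  by_cases hq : q.1.1 = 0
  · exact Or.inl ⟨q.1.2, Subtype.ext (Prod.ext hq rfl)⟩
  · exact Or.inr hq

theorem Big.P_Pt (h : Big v s) : h.P * h.Pᵀ = 1 := by
  ext1 i j
  rw [h.P_mul, transpose_apply, Big.P, of_apply, Matrix.one_apply]
  exact if_congr h.ι.injective.eq_iff rfl rfl

theorem lin_incl (c : s → A) : lin v (inclS s c) = fun i => ∑ p : s, c p • v p i := by
  rw [inclS, Fintype.linearCombination_apply, map_sum]
  funext i
  rw [Finset.sum_apply]
  exact Finset.sum_congr rfl fun p _ => by rw [map_smul, lin_single]; rfl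

theorem Big.V_mul (h : Big v s) (c : s → A) :
    (h.P * minor (tk v) s) *ᵥ (HahnSeries.C ∘ c) = lin v (inclS s c) := by
  rw [lin_incl]
  funext i
  change ∑ p, (h.P * minor (tk v) s) i p * HahnSeries.C (c p) = _
  refine Finset.sum_congr rfl fun p _ => ?_
  rw [h.P_mul, minor_tk, mul_comm, C_mul]
  exact congrArg _ (ex_zero _ i)

theorem Kc_mul (c : s → A) {q : s} (hq : q.1.1 ≠ 0) :
    (Kc v s *ᵥ c) q = pol N A (lin v (inclS s c)) q := by
  rw [inclS, Fintype.linearCombination_apply, map_sum, map_sum, Finsupp.finsetSum_apply]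
  refine Finset.sum_congr rfl fun p _ => ?_
  change Kc v s q p * c p = _
  rw [map_smul, map_smul, lin_single, Finsupp.smul_apply, smul_eq_mul, mul_comm, Kc_apply,
    if_neg hq]

theorem Kc_zero (c : s → A) {q : s} (hq : q.1.1 = 0) : (Kc v s *ᵥ c) q = 0 :=
  Finset.sum_eq_zero fun p _ => by
    change Kc v s q p * c p = _
    rw [Kc_apply, if_pos hq, zero_mul]

theorem incl_out (c : s → A) {p : ℕ × Fin N} (hp : p ∉ s) : inclS s c p = 0 := by
  rw [inclS, Fintype.linearCombination_apply, Finsupp.finsetSum_apply]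
  refine Finset.sum_eq_zero fun q _ => ?_
  rw [Finsupp.smul_apply, Finsupp.single_eq_of_ne fun e : p = q => hp (e ▸ q.2), smul_zero]

theorem Big.on_iff (h : Big v s) (c : s → A) :
    lin v (inclS s c) ∈ On N A (-1) ↔ Kc v s *ᵥ c = 0 := by
  rw [P286EB.on_iff]
  constructor
  · intro e
    funext q
    by_cases hq : q.1.1 = 0
    · exact Kc_zero c hq
    · rw [Kc_mul c hq, ← hi_succ _ hq, e]; rfl
  · intro e
    refine q_ext (fun i => hi_zero _ i) fun p hp => ?_
    rw [hi_succ _ hp]
    by_cases hs : p ∈ s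
    · exact (Kc_mul c (q := ⟨p, hs⟩) hp).symm.trans (congrFun e _)
    · rw [h.out _ _ hs, incl_out c hs]; rfl

theorem Big.split (h : Big v s) :
    minor (tk v) s = h.Pᵀ * (h.P * minor (tk v) s) + (Kc v s).map HahnSeries.C := by
  ext1 q p
  have e : (h.Pᵀ * (h.P * minor (tk v) s)) q p =
    (h.Pᵀ *ᵥ fun i => (h.P * minor (tk v) s) i p) q := rfl
  rw [Matrix.add_apply, e, map_apply, Kc, of_apply]
  rcases h.cases q with ⟨i, rfl⟩ | hq
  · rw [h.Pt_ι, h.P_mul, if_pos (h.ι0 i), map_zero, add_zero]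
  · rw [h.Pt_ne _ hq, if_neg hq, zero_add, minor_tk, ex_succ _ hq]

theorem Big.Hh_mul (h : Big v s) :
    (Hh A s).map HahnSeries.C * minor (tk v) s = (Kc v s).map HahnSeries.C := by
  ext1 q p
  rw [Hh, diagonal_map (map_zero _), diagonal_mul, map_apply, Kc, of_apply]
  split_ifs with hq
  · rw [map_zero, zero_mul]
  · rw [map_one, one_mul, minor_tk, ex_succ _ hq]

theorem Hh_Kc : Hh A s * Kc v s = Kc v s := by
  ext1 q p
  rw [Hh, diagonal_mul, Kc, of_apply]
  split_ifs <;> simp

theorem Big.Hh_Pt (h : Big v s) :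
    (Hh A s).map (HahnSeries.C : A →+* Ls A) * h.Pᵀ = (0 : Matrix s (Fin N) (Ls A)) := by
  ext1 q i
  rw [Hh, diagonal_map (map_zero _), diagonal_mul, transpose_apply, Big.P, of_apply]
  by_cases hq : q = h.ι i
  · rw [hq, if_pos (h.ι0 i), map_zero, zero_mul]; rfl
  · rw [if_neg hq, mul_zero]; rfl

theorem map_l {σ : Type} [Fintype σ] (l : Ls A →ₗ[A] A) (K : Matrix σ σ A) (B : Matrix σ σ (Ls A)) :
    K * B.map l = (K.map HahnSeries.C * B).map l := by
  ext1 q p
  rw [Matrix.mul_apply, map_apply, Matrix.mul_apply, map_sum]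
  exact Finset.sum_congr rfl fun r _ => by rw [map_apply, map_apply, C_mul, map_smul, smul_eq_mul]

theorem map_mulVec_C {σ τ : Type} [Fintype τ] (K : Matrix σ τ A) (c : τ → A) :
    K.map HahnSeries.C *ᵥ (HahnSeries.C ∘ c) = (HahnSeries.C ∘ (K *ᵥ c) : σ → Ls A) :=
  funext fun q => (RingHom.map_mulVec HahnSeries.C K c q).symm

/-- The matrix without the polar parts of positive level in the rows of level `0`. -/
def low (v : ℕ × Fin N → Fin N → Ls A) (s : Finset (ℕ × Fin N)) : Matrix s s (Ls A) :=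
  of fun q p : s => if q.1.1 = 0 then (v p - lin (std N A) (hi N A (pol N A (v p)))) q.1.2
    else HahnSeries.C (pol N A (v p) q)

theorem Big.low_eq (h : Big v s) : ∃ ψ : Matrix (Fin N) s (Ls A), ψ * h.Pᵀ = 0 ∧
    low v s = (1 - h.Pᵀ * ψ) * minor (tk v) s := by
  refine ⟨of fun i q => if q.1.1 = 0 then 0 else std N A q i, ?_, ?_⟩
  · ext1 i j
    rw [Matrix.mul_apply]
    refine Finset.sum_eq_zero fun q _ => ?_
    rw [transpose_apply, Big.P, of_apply, of_apply]
    by_cases hq : q = h.ι j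
    · rw [hq, if_pos (h.ι0 j), zero_mul]
    · rw [if_neg hq, mul_zero]
  · ext1 q p
    have e : ∀ B : Matrix (Fin N) s (Ls A), (h.Pᵀ * B) q p = (h.Pᵀ *ᵥ fun i => B i p) q :=
      fun _ => rfl
    rw [Matrix.sub_mul, Matrix.one_mul, Matrix.mul_assoc, Matrix.sub_apply, e, low, of_apply]
    rcases h.cases q with ⟨i, rfl⟩ | hq
    · rw [h.Pt_ι, if_pos (h.ι0 i), minor_tk, Pi.sub_apply]
      refine congrArg₂ _ (ex_zero _ i).symm ?_
      have e2 : hi N A (pol N A (v p)) = inclS s (projS s (hi N A (pol N A (v p)))) :=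
        (inclS_projS s _ fun r hr => by
          rw [hi_succ _ (h.ne hr), ← lin_single v p, h.out _ _ hr,
            Finsupp.single_eq_of_ne fun e : r = p => hr (e ▸ p.2)]).symm
      rw [e2, lin_incl, Matrix.mul_apply]
      refine Finset.sum_congr rfl fun r _ => ?_
      rw [projS_apply, of_apply, minor_tk]
      split_ifs with hr
      · rw [zero_mul, (Prod.ext hr rfl : r.1 = (0, r.1.2)), hi_zero, zero_smul]
      · rw [hi_succ _ hr, ex_succ _ hr, mul_comm, C_mul]
        rfl
    · rw [h.Pt_ne _ hq, if_neg hq, sub_zero, minor_tk, ex_succ _ hq]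

theorem Big.ord_D (h : Big v s) : OrdM (1 - N) ((minor (tk v) s).adjugate * h.Pᵀ) := by
  obtain ⟨ψ, h1, h2⟩ := h.low_eq
  have hE : (1 - h.Pᵀ * ψ).det = 1 := by rw [det_one_sub_mul_comm, h1, sub_zero, det_one]
  have hP : (1 - h.Pᵀ * ψ) * h.Pᵀ = h.Pᵀ := by
    rw [Matrix.sub_mul, Matrix.one_mul, Matrix.mul_assoc, h1, Matrix.mul_zero, sub_zero]
  have e : (minor (tk v) s).adjugate * h.Pᵀ = (low v s).adjugate * h.Pᵀ := by
    rw [h2, adjugate_mul_distrib, Matrix.mul_assoc]
    have h3 := congrArg (adjugate (1 - h.Pᵀ * ψ) * ·) hP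
    simp only [← Matrix.mul_assoc] at h3
    rw [adjugate_mul, hE, one_smul, Matrix.one_mul] at h3
    rw [← h3]
  rw [e]
  intro q i
  have e2 : ((low v s).adjugate * h.Pᵀ) q i = (low v s).adjugate q (h.ι i) := by
    rw [← transpose_apply ((low v s).adjugate * h.Pᵀ), transpose_mul, transpose_transpose, h.P_mul,
      transpose_apply]
  rw [e2, adjugate_apply]
  let d : s → Ls A := fun r => if r ∈ (Finset.univ.erase i).map h.ι then tp A 1 else 1
  have hd : ∏ r, d r = tp A (N - 1) := by
    rw [Finset.prod_ite_mem, Finset.univ_inter, Finset.prod_const, Finset.card_map,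
      Finset.card_erase_of_mem (Finset.mem_univ i), Finset.card_univ, Fintype.card_fin, tp,
      HahnSeries.single_pow, one_pow, nsmul_one, Nat.cast_sub i.pos, Nat.cast_one]
    rfl
  have hi' : IntM (diagonal d * (low v s).updateRow (h.ι i) (Pi.single q 1)) := fun r p => by
    rw [diagonal_mul]
    by_cases hr : r = h.ι i
    · rw [hr, updateRow_self]
      refine Ord.mul ?_ ?_
      · simp only [d]
        split_ifs
        · exact (Ord.tp 1).mono (by norm_num)
        · exact Ord.one
      · rw [Pi.single_apply]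
        split_ifs
        · exact Ord.one
        · exact Ord.zero 0
    · rw [updateRow_ne hr, low, of_apply]
      rcases h.cases r with ⟨j, rfl⟩ | h0
      · have hj : h.ι j ∈ (Finset.univ.erase i).map h.ι := Finset.mem_map_of_mem _
          (Finset.mem_erase.2 ⟨fun e => hr (by rw [e]), Finset.mem_univ _⟩)
        simp only [d, if_pos hj]
        rw [if_pos (h.ι0 j)]
        exact ord_tp (on_sub (v p) _)
      · have hj : r ∉ (Finset.univ.erase i).map h.ι := fun e => by
          obtain ⟨j, -, rfl⟩ := Finset.mem_map.1 e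
          exact h0 rfl
        simp only [d, if_neg hj, if_neg h0, one_mul]
        exact Ord.C _
  have h4 := hi'.det
  rw [det_mul, det_diagonal, hd] at h4
  exact (ord_tp_mul (n := N - 1)).1 (by rwa [show (N : ℤ) - 1 + (1 - N) = 0 by ring])

theorem crd : CRD := by
  intro E A _ _ N v M hv hM vol l hl
  obtain ⟨s, h⟩ := exists_big hv.1
  subst hM
  set B := minor (tk v) s with hB
  have hdet : B.det = Th v := h.th.symm
  have hK : (Kc v s).map HahnSeries.C * B.adjugate = Th v • (Hh A s).map HahnSeries.C := by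
    rw [← h.Hh_mul, Matrix.mul_assoc, mul_adjugate, hdet, Matrix.mul_smul, Matrix.mul_one]
  have hG : Kc v s * B.adjugate.map l = Hh A s := by
    rw [map_l, hK]
    ext1 q p
    rw [map_apply, Matrix.smul_apply, map_apply, smul_eq_mul, mul_comm, C_mul, map_smul, hl,
      smul_eq_mul, mul_one]
  set G := B.adjugate.map l
  have hε : Kc v s * (1 - G * Kc v s) = 0 := by
    rw [Matrix.mul_sub, Matrix.mul_one, ← Matrix.mul_assoc, hG, Hh_Kc, sub_self]
  refine ⟨eq_top_iff.2 fun w _ => ?_, ?_⟩
  · let w1 := w - lin v (pol N A w)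
    have h1 : ∀ p, p ∉ s → pol N A w1 p = 0 := fun p hp => by
      rw [map_sub, Finsupp.sub_apply, h.out _ _ hp, sub_self]
    let c := G *ᵥ projS s (pol N A w1)
    refine Submodule.mem_sup.2 ⟨lin v (pol N A w) + lin v (inclS s c), add_mem ⟨_, rfl⟩ ⟨_, rfl⟩,
      w1 - lin v (inclS s c), on_iff.2 (q_ext (fun i => hi_zero _ i) fun p hp => ?_), by
        simp only [w1]; abel⟩
    rw [hi_succ _ hp, map_sub, Finsupp.sub_apply]
    by_cases hs : p ∈ s
    · rw [← Kc_mul c (q := ⟨p, hs⟩) hp, mulVec_mulVec, hG, Hh, mulVec_diagonal, if_neg hp, one_mul]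
      exact sub_self _
    · rw [h1 p hs, h.out _ _ hs, incl_out c hs, sub_self]; rfl
  · let e := (Fintype.equivFin s).symm
    let ε : Matrix s s (Ls A) := (1 - G * Kc v s).map HahnSeries.C
    let S : Matrix (Fin N) s (Ls A) := h.P * B * ε
    let D : Matrix s (Fin N) (Ls A) := B.adjugate * h.Pᵀ
    have hS : ∀ c : s → A, S *ᵥ (HahnSeries.C ∘ c) = lin v (inclS s ((1 - G * Kc v s) *ᵥ c)) :=
      fun c => by rw [← h.V_mul, ← map_mulVec_C, mulVec_mulVec]
    refine ⟨_, S.submatrix id e, D.submatrix e id, fun q => ?_, ?_, fun q i => h.ord_D _ _,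
      fun m hm q => ?_, ?_⟩
    · have e1 : (fun i => S.submatrix id e i q) = S *ᵥ (HahnSeries.C ∘ Pi.single (e q) (1 : A)) := by
        have : (HahnSeries.C ∘ Pi.single (e q) (1 : A) : s → Ls A) = Pi.single (e q) 1 := by
          funext r
          rw [Function.comp_apply, Pi.single_apply, Pi.single_apply]
          split_ifs <;> simp
        rw [this, mulVec_single_one]
        rfl
      rw [e1, hS]
      exact ⟨⟨_, rfl⟩, (h.on_iff _).2 (by rw [mulVec_mulVec, hε, zero_mulVec])⟩
    · rw [submatrix_mul_equiv, submatrix_id_id]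
      have h2 : (Kc v s).map (HahnSeries.C : A →+* Ls A) * D = (0 : Matrix s (Fin N) (Ls A)) := by
        rw [← Matrix.mul_assoc, hK, Matrix.smul_mul, h.Hh_Pt, smul_zero]
      have h3 : ε = 1 - G.map HahnSeries.C * (Kc v s).map HahnSeries.C := by
        change (HahnSeries.C : A →+* Ls A).mapMatrix _ = _
        rw [map_sub, map_one, map_mul]
        rfl
      change h.P * B * ε * D = _
      rw [h3, Matrix.mul_assoc, Matrix.sub_mul, Matrix.one_mul, Matrix.mul_assoc _ _ D, h2,
        Matrix.mul_zero, sub_zero, Matrix.mul_assoc, ← Matrix.mul_assoc B, mul_adjugate, hdet,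
        Matrix.smul_mul, Matrix.one_mul, Matrix.mul_smul, h.P_Pt]
    · change E.Reg ((D *ᵥ m) (e q))
      rw [← mulVec_mulVec, ← cramer_eq_adjugate_mulVec, cramer_apply]
      refine det_mem (Rm E A) _ vol h.ι _ (fun p => ?_) fun r hr p => ?_
      · by_cases hp : p = e q
        · have : (fun i => B.updateCol (e q) (h.Pᵀ *ᵥ m) (h.ι i) p) = m := funext fun i => by
            rw [hp, updateCol_self, h.Pt_ι]
          rw [this]
          exact hm
        · have : (fun i => B.updateCol (e q) (h.Pᵀ *ᵥ m) (h.ι i) p) = v p := funext fun i => by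
            rw [updateCol_ne hp]
            exact (minor_tk _ p).trans (ex_zero _ i)
          rw [this]
          exact mem_range_lin v p
      · by_cases hp : p = e q
        · exact ⟨0, by rw [hp, updateCol_self, h.Pt_ne _ (h.ne' hr), map_zero]⟩
        · exact ⟨_, by rw [updateCol_ne hp]; exact (minor_tk r p).trans (ex_succ _ (h.ne' hr))⟩
    · rintro _ ⟨⟨x, rfl⟩, hm⟩
      have hx : inclS s (projS s x) = x := inclS_projS s x fun p hp => by
        rw [← h.out x p hp, ← hi_succ _ (h.ne hp), on_iff.1 hm]; rfl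
      set c := projS s x
      have hc : Kc v s *ᵥ c = 0 := (h.on_iff c).1 (by rw [hx]; exact hm)
      refine ⟨c ∘ e, ?_, ?_⟩
      · rw [submatrix_mulVec_equiv]
        have : (HahnSeries.C ∘ c ∘ e : _ → Ls A) ∘ e.symm = HahnSeries.C ∘ c := by
          funext r; simp
        rw [this, hS, sub_mulVec, one_mulVec, ← mulVec_mulVec, hc, mulVec_zero, sub_zero, hx]
        rfl
      · have h5 : h.Pᵀ *ᵥ lin v x = B *ᵥ (HahnSeries.C ∘ c) := by
          conv_rhs => rw [hB, h.split, add_mulVec, map_mulVec_C, hc, ← mulVec_mulVec, h.V_mul, hx]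
          have : (HahnSeries.C ∘ (0 : s → A) : s → Ls A) = 0 := funext fun _ => map_zero _
          rw [this, add_zero]
        funext q
        change (D *ᵥ lin v x) (e q) = _
        rw [← mulVec_mulVec, h5, mulVec_mulVec, adjugate_mul, hdet, smul_mulVec, one_mulVec]
        rfl

end

end Vale.Agent.P286EB
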