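import Vale.Agent.P286EB.Evh
import Vale.Agent.P286EXI.Xe

/-!
# The evaluation theorem for the functor `Ξ`
-/

set_option linter.all false

namespace Vale.Agent.P286EX

open CategoryTheory TensorProduct Vale.Agent.P286 Vale.Agent.P286.St Vale.Agent.P286.H847
  Vale.Agent.P286.H710 Vale.Agent.P286.H697 Vale.Agent.P286E
open Vale.Agent.P286.H389 (outM)

noncomputable section

variable {I : Type} [SmallCategory I] {D : CD I} {G : Grp} {s : ℂ} {K : GK G} {xd : XD D}
  {U : Rep K}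

namespace PD

variable (P : PD K xd s U) (H : HG (K.gs D s)) (i : I)

/-- The extension along an arrow of the fibre category. -/
def extF {i : I} {X Y : FB D G s i} (u : X ⟶ Y) : GD.Hom (P.lvF H X) (P.lvF H Y) :=
  P.ext H.gau (FB.ar u)

theorem extF_t {i : I} {X Y : FB D G s i} (u : X ⟶ Y) (η : (P.lvF H X).V) (q : (P.Q X.ob).M.V) :
    (P.extF H u).f η (P.P.gt (FB.ar u) q) = H.ft (FB.ar u) (η q) := P.ext_t H.gau (FB.ar u) η q

/-- The identification of the levels. -/
def lvA (k : ℕ) : GD.Hom ((P.xcs H.gau i).X k) (P.lvF H ((ptF K xd s i).P k)) :=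
  GD.Hom.id (P.lvF H ((ptF K xd s i).P k))

/-- The identification of the levels. -/
def lvB (k : ℕ) : GD.Hom (P.lvF H ((ptF K xd s i).P k)) ((P.xcs H.gau i).X k) :=
  GD.Hom.id (P.lvF H ((ptF K xd s i).P k))

theorem lvA_apply (k : ℕ) (x : ((P.xcs H.gau i).X k).V) : (P.lvA H i k).f x = x := rfl

theorem fc_extF (k j : ℕ) : (P.xcs H.gau i).fc k j = P.extF H ((ptF K xd s i).fc k j) :=
  P.xcs_fc H.gau i k j

theorem lvA_fc (k j : ℕ) (x : ((P.xcs H.gau i).X k).V) :
    (P.lvA H i (k + 1)).f (((P.xcs H.gau i).fc k j).f x) =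
      (P.extF H ((ptF K xd s i).fc k j)).f ((P.lvA H i k).f x) :=
  (P.lvA_apply H i (k + 1) _).trans ((congrArg
    (fun g : GD.Hom ((P.xcs H.gau i).X k) ((P.xcs H.gau i).X (k + 1)) => g.f x)
      (P.fc_extF H i k j)).trans
    (congrArg (P.extF H ((ptF K xd s i).fc k j)).f (P.lvA_apply H i k x).symm))

/-- The levels are the maps from the generator. -/
def lvX : LV P H i (P.xcs H.gau i) where
  a := P.lvA H i
  b := P.lvB H i
  a_b _ _ := rfl
  b_a _ _ := rfl
  a_fc k j _ x q := by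
    rw [lvA_fc]
    exact P.extF_t H ((ptF K xd s i).fc k j) _ q

/-- **The evaluation theorem.** -/
theorem evh' (e : Fin U.n → GD.Hom ((P.xi H.gau).M i).toGD (H.K (Zo xd i)).M)
    (he : ∀ k x, (e k).f x = outM (RQ G s (Zo xd i)) (H.K (Zo xd i)).M.V
      ((P.lv0 H.gau i).f x (P.q1 _ (P.uv _ k)))) (h : FC H.fa) : Hit xd U H.fa i _ e :=
  (P.lvX H i).hit e he h

/-- **The evaluation theorem for `Ξ`.** -/
theorem evh (h : FC H.fa) : Hit xd U H.fa i _ (xiE P H i) :=
  (P.lvX H i).hit (xiE P H i) (xiE_eq P H i) h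

end PD

end

end Vale.Agent.P286EX
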