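import Vale.Agent.P286EX7.Hq
import Vale.Agent.P286EX3.Gau

/-!
# Averaging data
-/

set_option linter.all false

namespace Vale.Agent.P286EX

open TensorProduct Vale.Agent.P286 Vale.Agent.P286.H847 Vale.Agent.P286.H710 Vale.Agent.P286.H697

noncomputable section

variable {A B : Type} [CommRing A] [Algebra ℂ A] [CommRing B] [Algebra ℂ B]

/-- The product of the forms `θ^a`, `a ∈ S`, in decreasing order. -/
def thS {R : Type} [Monoid R] (θ : Fin 3 → R) (S : Finset (Fin 3)) : R :=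
  (if 2 ∈ S then θ 2 else 1) * (if 1 ∈ S then θ 1 else 1) * (if 0 ∈ S then θ 0 else 1)

theorem thS_empty {R : Type} [Monoid R] (θ : Fin 3 → R) : thS θ ∅ = 1 := by simp [thS]

/-- The average. -/
def avg (θ : Fin 3 → Om ℂ B) {F : OmM A} {L : OmM B} (jk : F.M.V →ₗ[ℂ] L.M.V)
    (c : Finset (Fin 3) → L.M.V →ₗ[ℂ] F.M.V) (y : L.M.V) : L.M.V := ∑ S, thS θ S • jk (c S y)

/-- The coefficients of the average over the group. -/
structure AV (l : A →ₐ[ℂ] B) (θ : Fin 3 → Om ℂ B) (F : OmM A) (L : OmM B) where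
  jk : GD.Hom F.M L.M
  jk_smul : ∀ (w : Om ℂ A) y, jk.f (w • y) = Om.pb l w • jk.f y
  c : Finset (Fin 3) → L.M.V →ₗ[ℂ] F.M.V
  c_th : ∀ S T y, c S (thS θ T • jk.f y) = if S = T then y else 0
  c_gr : ∀ (S : Finset (Fin 3)) (m : ℤ) y, y ∈ L.M.gr m → c S y ∈ F.M.gr (m - S.card)
  av_d : ∀ y, avg θ jk.f c (L.M.d y) = L.M.d (avg θ jk.f c y)
  av_θ : ∀ a y, avg θ jk.f c (θ a • y) = θ a • avg θ jk.f c y
  av_pb : ∀ (w : Om ℂ A) y, avg θ jk.f c (Om.pb l w • y) = Om.pb l w • avg θ jk.f c y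

/-- The average. -/
def AV.av {l : A →ₐ[ℂ] B} {θ : Fin 3 → Om ℂ B} {F : OmM A} {L : OmM B} (V : AV l θ F L) :
    L.M.V →+ L.M.V where
  toFun := avg θ V.jk.f V.c
  map_zero' := by simp [avg]
  map_add' x y := by simp [avg, Finset.sum_add_distrib]

theorem AV.av_apply {l : A →ₐ[ℂ] B} {θ : Fin 3 → Om ℂ B} {F : OmM A} {L : OmM B} (V : AV l θ F L)
    (y : L.M.V) : V.av y = ∑ S, thS θ S • V.jk.f (V.c S y) := rfl

end

end Vale.Agent.P286EX
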