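import Vale.Agent.P286EB.QP
import Vale.Agent.P286EP.Goods
import Vale.Agent.P286EL.Tw
import Vale.Agent.P286EF.Ob
import Vale.Agent.P286.H295.Red

/-!
# The charts of the semistable locus and their normal forms
-/

set_option linter.all false

namespace Vale.Agent.P286EB

open CategoryTheory Matrix Vale.Agent.P286 Vale.Agent.P286E Vale.Agent.P286EN
open Vale.Agent.P286ER (IsOb bcM isOb)
open Vale.Agent.P286ET (Ix)
open Vale.Agent.P286EO Vale.Agent.P286EP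

noncomputable section

attribute [-instance] HahnSeries.powerSeriesAlgebra

variable {A B : Type} [CommRing A] [Algebra ℂ A] [CommRing B] [Algebra ℂ B] {E : Ell} {e : Rt E}
  {G : Grp}

/-- The function `Θ` of the adjoint lattice. -/
def thT (e : Rt E) (G : Grp) (i : Ix) (x : A) : Ls A := if G.N = 2 then th0 E x else thM e i x

/-- The weight. -/
def wt (G : Grp) : ℕ := if G.N = 2 then 4 else 1

/-- The families. -/
def FAM (G : Grp) : Prop := ∀ (E : Ell) (e : Rt E) (A : Type) [CommRing A] [Algebra ℂ A]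
  [IsReduced A] (i : Ix) (x : A) (ξ : Fin 3 → A) (π : Matrix (Fin G.N) (Fin G.N) A),
  Pt e G i x ξ π → (∃ (T : ℕ × Fin 3 → Fin 3 → Ls A) (u : Aˣ), IsOb E G (FM e G i x ξ π) T ∧
    Th T = (u : A) • thT e G i x) ∧
  (∀ v, Adm v → LinearMap.range (lin v) = FM e G i x ξ π → IsUnit (eqn E i (Th v))) ∧
  (∃ l : Ls A →ₗ[A] A, l (thT e G i x) = 1) ∧
  (i = .n → ∃ k : ℂ, thT e G .n x =
    (algebraMap ℂ A k * (x - ea e A) ^ wt G) • thT e G .b (kx e .b .n x))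

/-- The unit `δ` and the function `Θ`. -/
def DLT (G : Grp) : Prop := ∀ (E : Ell) (X Y : Ob E G) (φ : Mo X Y),
  φ.dl • lm φ.f.r (Th X.T) = Th Y.T

theorem trn_self (i : Ix) (x : A) (ξ : Fin 3 → A) (π : Matrix (Fin G.N) (Fin G.N) A) :
    trn e G i i x ξ π = 1 := by cases i <;> rfl

theorem trn_ne {i j : Ix} (h : ¬(i = .b ∧ j = .n)) (x : A) (ξ : Fin 3 → A)
    (π : Matrix (Fin G.N) (Fin G.N) A) : trn e G i j x ξ π = 1 := by
  cases i <;> cases j <;> first | rfl | exact absurd ⟨rfl, rfl⟩ h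

theorem lm_ysN (f : A →ₐ[ℂ] B) : lm (f : A →+* B) (P286EN.ys E A) = P286EN.ys E B := P286EN.lm_ys E f

theorem trn_map (f : A →ₐ[ℂ] B) (i j : Ix) {x : A} (hx : j = .n → IsUnit (fv E x))
    (ξ : Fin 3 → A) (π : Matrix (Fin G.N) (Fin G.N) A) :
    (trn e G i j x ξ π).map (lm (f : A →+* B)) = trn e G i j (f x) (f ∘ ξ) (π.map f) := by
  cases i <;> cases j <;> try exact Matrix.map_one _ (map_zero _) (map_one _)
  have h1 : ∀ m : Matrix (Fin G.N) (Fin G.N) A,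
      (lm (f : A →+* B)).mapMatrix (cm m) = cm (m.map f) := fun m => cm_map _ m
  have h2 : ∀ (w : Ls A) (m : Matrix (Fin G.N) (Fin G.N) (Ls A)),
      (lm (f : A →+* B)).mapMatrix (w • m) = lm (f : A →+* B) w • (lm (f : A →+* B)).mapMatrix m :=
    fun w m => map_smul_lm _ w m
  have h3 : ∀ a : A, lm (f : A →+* B) (HahnSeries.C a) = HahnSeries.C (f a) := fun a => lm_C _ a
  change (lm (f : A →+* B)).mapMatrix _ = _
  simp only [trn, map_add, map_mul, map_sub, map_one, h1, h2, h3, P286EL.lm_sI, lm_ysN, lm_xs,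
    map_ea, map_kx e f .b .n hx, map_inv f (unit_sub e (hx rfl)), Grp.ht_map]

theorem trn_inter (i j : Ix) (x : A) {ξ ξ' : Fin 3 → A} {π π' h : Matrix (Fin G.N) (Fin G.N) A}
    (h1 : h * G.ht ξ = G.ht ξ' * h) (h2 : h * π = π' * h) :
    cm h * trn e G i j x ξ π = trn e G i j x ξ' π' * cm h := by
  by_cases hij : i = .b ∧ j = .n
  swap
  · rw [trn_ne hij, trn_ne hij, Matrix.mul_one, Matrix.one_mul]
  obtain ⟨rfl, rfl⟩ := hij
  have h3 : cm h * cm (G.ht ξ) = cm (G.ht ξ') * cm h := by rw [← cm_mul, h1, cm_mul]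
  have h4 : cm h * cm π = cm π' * cm h := by rw [← cm_mul, h2, cm_mul]
  simp only [trn, mul_add, add_mul, mul_sub, sub_mul, mul_smul_comm, smul_mul_assoc, mul_one,
    one_mul, h4, h3, ← mul_assoc (cm h), mul_assoc (cm (G.ht ξ'))]

theorem trn_comp {i j k : Ix} (hij : i ≤ j) (hjk : j ≤ k) (f : A →ₐ[ℂ] B) {x : A} {x' : B}
    {ξ : Fin 3 → A} {ξ' : Fin 3 → B} {π : Matrix (Fin G.N) (Fin G.N) A}
    {π' h : Matrix (Fin G.N) (Fin G.N) B} (hx : j = .n → IsUnit (fv E x))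
    (h0 : f x = kx e j k x') (h1 : h * G.ht (f ∘ ξ) = kc e j k x' • (G.ht ξ' * h))
    (h2 : j ≠ .b → h * π.map f = π' * h) :
    trn e G j k x' ξ' π' * cm h * (trn e G i j x ξ π).map (lm (f : A →+* B)) =
      trn e G i k x' ξ' π' * cm h := by
  rcases hij with rfl | rfl
  · rw [trn_self, Matrix.map_one _ (map_zero _) (map_one _), Matrix.mul_one]
  · have hk : k = .n := by
      rcases hjk with rfl | rfl <;> rfl
    subst hk
    rw [kc_self, one_smul] at h1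
    rw [kx_self] at h0
    rw [trn_self, Matrix.one_mul, trn_map f _ _ hx, h0, trn_inter i .n x' h1 (h2 (by decide))]

theorem lm_thT (f : A →ₐ[ℂ] B) (i : Ix) (x : A) :
    lm (f : A →+* B) (thT e G i x) = thT e G i (f x) := by
  have h3 : ∀ a : A, lm (f : A →+* B) (HahnSeries.C a) = HahnSeries.C (f a) := fun a => lm_C _ a
  rw [thT, thT]
  split_ifs
  · rw [th0, th0, map_sub, map_mul, h3, h3, lm_xs]
    simp only [map_sub, map_mul, map_pow, map_add, map_ofNat, map_fv, AlgHom.commutes]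
  · cases i
    · rw [thM, thM, map_sub, h3, lm_xs] <;> simp
    · rw [thM, thM, map_sub, map_mul, map_sub (lm _), h3, h3, h3, lm_xs, map_sub f, map_ea, map_da]
    · rw [thM, thM, map_sub, h3, lm_xs] <;> simp

instance red (A : SmAlg) : IsReduced A.R := H295.isReduced_of_smooth ℂ A.R

/-- A morphism is determined by its action on the lattices. -/
def moOf (hG : G = SL2 ∨ G = SO3) (hR : RED) {X Y : Ob E G} (f : X.A.Hm Y.A)
    (a : Matrix (Fin G.N) (Fin G.N) (Ls Y.A.R)) (ha : InG G a) (hi : IntM a)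
    (h1 : ∀ m ∈ X.M, a *ᵥ (lm f.r ∘ m) ∈ Y.M) : Mo X Y :=
  Mo.mk' (Grp.ok_of hG) f a hi ha h1 fun p => by
    have h := ((isOb X).bc f).gauge (Grp.ok_of hG) ha hi
    have hM : (bcM f.r X.M).map (act a) = Y.M := by
      obtain ⟨v, hv, e1⟩ := h.adm
      obtain ⟨w, hw, e2⟩ := Y.adm
      rw [← e1, ← e2]
      refine hv.range_eq hw ?_
      rw [e1, e2]
      rintro _ ⟨m, hm, rfl⟩
      exact mulVec_mem_bcM f.r h1 m hm
    have h2 : LinearMap.range (lin (gau (G.ad a) (G.ad a.adjugate) fun p => lm f.r ∘ X.T p)) ≤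
        LinearMap.range (lin Y.T) := range_lin_le.2 fun q =>
      (hR E G hG Y.A.R Y.M).2 Y.T (isOb Y) _ (hM ▸ h.lie q)
    exact h2 ((range_gau hi.ad hi.adjugate.ad ((Grp.ok_of hG).ad_adj_mul ha) _).ge
      ⟨_, mem_range_lin _ p, rfl⟩)

section

variable (hG : G = SL2 ∨ G = SO3) (hR : RED) (hF : FAM G) (hH : HOM) (hT : TRN)
  (v0 : ∀ X : Ob E G, ℕ × Fin G.N → Fin G.N → Ls X.A.R)
  (hv : ∀ X, Adm (v0 X) ∧ LinearMap.range (lin (v0 X)) = X.M) (c : ℂ)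

/-- The basis of the adjoint lattice. -/
def fT (X : PO e G) : ℕ × Fin 3 → Fin 3 → Ls X.A.R := (hF E e X.A.R _ _ _ _ X.pt).1.choose

/-- The unit. -/
def fu (X : PO e G) : X.A.Rˣ := (hF E e X.A.R _ _ _ _ X.pt).1.choose_spec.choose

theorem fT_spec (X : PO e G) : IsOb E G (FM e G X.i X.x X.ξ X.π) (fT hF X) ∧
    Th (fT hF X) = (fu hF X : X.A.R) • thT e G X.i X.x :=
  (hF E e X.A.R _ _ _ _ X.pt).1.choose_spec.choose_spec

/-- The bundle defined by a point of a chart. -/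
def fO (X : PO e G) : Ob E G := Ob.of X.A (fT_spec hF X).1

/-- The equation of the chart `a`. -/
def eqa (X : Ob E G) : (DE E G c).R X := eqn (A := X.A.R) E .a (Th (v0 X))

/-- The equation of the chart `b`. -/
def eqb (X : Ob E G) : (DE E G c).R X := eqn (A := X.A.R) E .b (Th (v0 X))

theorem th_eq (i : Ix) (X : Ob E G) : th (T := DE E G c) (eqa v0 c) (eqb v0 c) i X =
    eqn E i (Th (v0 X)) := by cases i <;> rfl

include hG hH in
theorem hom_of {X Y : PO e G} (u : PM X Y) :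
    InG G (trn e G X.i Y.i Y.x Y.ξ Y.π * cm u.h) ∧ IntM (trn e G X.i Y.i Y.x Y.ξ Y.π * cm u.h) ∧
    ∀ m ∈ FM e G X.i X.x X.ξ X.π, (trn e G X.i Y.i Y.x Y.ξ Y.π * cm u.h) *ᵥ (lm u.φ.r ∘ m) ∈
      FM e G Y.i Y.x Y.ξ Y.π :=
  (hH E e G hG _ _ u.φ _ _ u.le _ _ _ _ _ _ X.pt Y.pt _).2 ⟨u.h, u.pt, rfl, u.hx, u.hY, u.hπ⟩

/-- The morphism of bundles defined by a morphism of points. -/
def fM {X Y : PO e G} (u : PM X Y) : Mo (fO hF X) (fO hF Y) :=
  moOf hG hR (X := fO hF X) (Y := fO hF Y) u.φ (trn e G X.i Y.i Y.x Y.ξ Y.π * cm u.h)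
    (hom_of hG hH u).1 (hom_of hG hH u).2.1 (hom_of hG hH u).2.2

theorem fM_a {X Y : PO e G} (u : PM X Y) :
    (fM hG hR hF hH u).a = trn e G X.i Y.i Y.x Y.ξ Y.π * cm u.h := rfl

theorem fM_one (X : PO e G) : fM hG hR hF hH (PM.one X) = Mo.one (fO hF X) :=
  Mo.ext rfl (by
    have h2 : trn e G X.i X.i X.x X.ξ X.π * cm (1 : Matrix (Fin G.N) (Fin G.N) X.A.R) = 1 := by
      rw [trn_self, cm_one, Matrix.one_mul]
    exact h2)

theorem fM_comp {X Y Z : PO e G} (u : PM X Y) (v : PM Y Z) :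
    fM hG hR hF hH (u.comp v) = (fM hG hR hF hH u).comp (fM hG hR hF hH v) :=
  Mo.ext rfl (by
    have h1 := trn_comp u.le v.le v.φ Y.pt.un v.hx v.hY v.hπ
    have h2 : trn e G X.i Z.i Z.x Z.ξ Z.π * cm (v.h * u.h.map v.φ) =
        trn e G Y.i Z.i Z.x Z.ξ Z.π * cm v.h *
          (trn e G X.i Y.i Y.x Y.ξ Y.π * cm u.h).map (lm (v.φ : Y.A.R →+* Z.A.R)) := by
      rw [Matrix.map_mul, ← Matrix.mul_assoc, h1, cm_map, cm_mul, Matrix.mul_assoc]
      rfl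
    exact h2)

include hG hT in
theorem trn_inG (i : Ix) (Y : PO e G) : InG G (trn e G i Y.i Y.x Y.ξ Y.π) := by
  obtain ⟨j, A, x, ξ, π, pt⟩ := Y
  cases i <;> cases j <;> first | exact InG.one | exact (hT E e G hG _ x ξ π pt).2.1

/-- The equivalence. -/
def eqF (hN : ∀ i, NFO G i) (s : ℂ) :
    EqF (GS (DE E G c) (eqa v0 c) (eqb v0 c)) (QP e G s) where
  ob X := ⟨X.i, fO hF X, by
    rw [th_eq]
    exact (hF E e X.A.R _ _ _ _ X.pt).2.1 _ (hv _).1 (hv _).2⟩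
  map u := ⟨PM.le u, fM hG hR hF hH u⟩
  map_id X := GM.ext (fM_one hG hR hF hH X)
  map_comp u v := GM.ext (fM_comp hG hR hF hH u v)
  full X Y ψ := by
    obtain ⟨h, h1, h2, h3, h4, h5⟩ := (hH E e G hG _ _ (Mo.f (GM.φ ψ)) _ _ (GM.le ψ) _ _ _ _ _ _
      X.pt Y.pt (Mo.a (GM.φ ψ))).1 ⟨Mo.inG (GM.φ ψ), Mo.intM (GM.φ ψ), Mo.lat (GM.φ ψ)⟩
    exact ⟨⟨GM.le ψ, Mo.f (GM.φ ψ), h, h1, h3, h4, h5⟩, GM.ext (Mo.ext rfl h2.symm)⟩
  faith X Y u u' h := by
    have h1 : PM.φ u = PM.φ u' := congrArg (fun ψ => Mo.f (GM.φ ψ)) h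
    have h2 : trn e G X.i Y.i Y.x Y.ξ Y.π * cm (PM.h u) =
        trn e G X.i Y.i Y.x Y.ξ Y.π * cm (PM.h u') := congrArg (fun ψ => Mo.a (GM.φ ψ)) h
    have h3 := congrArg ((trn e G X.i Y.i Y.x Y.ξ Y.π).adjugate * ·) h2
    simp only [← Matrix.mul_assoc, (trn_inG hG hT X.i Y).adj_mul, Matrix.one_mul] at h3
    exact PM.ext h1 (cm_inj h3)
  ess Z := by
    obtain ⟨i, X, hX⟩ := Z
    have hX' : IsUnit (eqn (A := Ob.A X |>.R) E i (Th (v0 X))) :=
      (congrArg IsUnit (th_eq v0 c i X)).mp hX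
    obtain ⟨a, x, ξ, π, ha, hi, pt, hM⟩ :=
      hN i E e (Ob.A X).R (v0 X) (Ob.M X) (Ob.T X) (isOb X) (hv X).1 (hv X).2 hX'
    let P : PO e G := ⟨i, X.A, x, ξ, π, pt⟩
    let α : Mo (fO hF P) X := moOf hG hR (X := fO hF P) (Y := X) (SmAlg.Hm.id X.A) a ha hi
      fun m hm => hM ▸ ⟨m, hm, rfl⟩
    exact ⟨P, ⟨le_rfl, α⟩, ⟨le_rfl, α.inv (Grp.ok_of hG) (SmAlg.Hm.id X.A) rfl⟩,
      GM.ext (α.comp_inv (Grp.ok_of hG) _ rfl), GM.ext (α.inv_comp (Grp.ok_of hG) _ rfl rfl)⟩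
  i _ := AlgEquiv.refl
  nat _ _ := rfl

include hF in
theorem thT_comp {i : Ix} (Y : PO e G) (h : i ≤ Y.i) : ∃ k : ℂ, thT e G Y.i Y.x =
    (algebraMap ℂ _ k * kr e i Y.i Y.x ^ wt G) • thT e G i (kx e i Y.i Y.x) := by
  obtain ⟨j, A, x, ξ, π, pt⟩ := Y
  have h1 : ∀ θ : Ls A.R, ∃ k : ℂ, θ = (algebraMap ℂ A.R k * 1 ^ wt G) • θ := fun θ =>
    ⟨1, by rw [map_one, one_mul, one_pow, one_smul]⟩
  rcases h with rfl | h
  · change ∃ k : ℂ, thT e G i x = (algebraMap ℂ _ k * kr e i i x ^ wt G) • thT e G i (kx e i i x)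
    rw [kr_self, kx_self]
    exact h1 _
  · change j = .n at h
    subst h
    cases i
    · exact h1 _
    · exact (hF E e A.R _ _ _ _ pt).2.2.2 rfl
    · exact h1 _

include hG hR hF hH hT hv in
theorem catG (hN : ∀ i, NFO G i) (hD : DLT G) (s : ℂ) (hs : s = wt G * ((2 - c) / (2 * 2))) :
    EQV (WD.st (GS (DE E G c) (eqa v0 c) (eqb v0 c))) (WD.st (QP e G s)) := by
  refine (eqF hG hR hF hH hT v0 hv c hN s).eqv_pow (good_GS (good_DE (Grp.ok_of hG) c) _ _)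
    (good_QP e G s) (fun _ => rfl) (fun _ => rfl) (wt G) hs (fun X => (fu hF X : X.A.R))
    (fun X => (fu hF X).isUnit) fun X Y u => ?_
  obtain ⟨k, hk⟩ := thT_comp hF Y (PM.le u)
  obtain ⟨l, hl⟩ := (hF E e Y.A.R _ _ _ _ Y.pt).2.2.1
  refine ⟨algebraMap ℂ _ k, fun w => w.map_algebraMap k, ?_⟩
  obtain ⟨δ, hδ⟩ : ∃ δ : Y.A.R, δ = (fM hG hR hF hH u).dl := ⟨_, rfl⟩
  have h1 : δ • lm (PM.φ u : X.A.R →+* Y.A.R) (Th (fT hF X)) = Th (fT hF Y) :=
    hδ ▸ hD E _ _ (fM hG hR hF hH u)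
  rw [(fT_spec hF X).2, (fT_spec hF Y).2, lm_smul, lm_thT, PM.hx u, smul_smul] at h1
  rw [hk, map_smul, smul_eq_mul] at hl
  rw [hk, smul_smul] at h1
  have h2 := congrArg l h1
  rw [map_smul, map_smul, smul_eq_mul, smul_eq_mul] at h2
  suffices h4 : δ * (PM.φ u) (fu hF X) =
      algebraMap ℂ _ k * fu hF Y * kr e X.i Y.i Y.x ^ wt G by
    rw [hδ] at h4
    exact h4
  have h3 : IsUnit (l (thT e G X.i (kx e X.i Y.i Y.x))) := IsUnit.of_mul_eq_one_right _ hl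
  refine h3.mul_right_cancel (h2.trans ?_)
  ring

end

end

end Vale.Agent.P286EB
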