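import Vale.Agent.P286EB.Th
import Vale.Agent.P286ER.IF

/-!
# The rule of Cramer for the function `Θ`
-/

set_option linter.all false

namespace Vale.Agent.P286EB

open Matrix Vale.Agent.P286 Vale.Agent.P286E Vale.Agent.P286ER

noncomputable section

attribute [-instance] HahnSeries.powerSeriesAlgebra

variable {A B S : Type} [CommRing A] [CommRing B] [CommRing S] {N : ℕ}

theorem det_mem [Algebra ℂ A] {σ : Type} [Fintype σ] [DecidableEq σ] (Rg : Submodule A (Ls A))
    (M : Set (Fin N → Ls A)) (vol : ∀ m : Fin N → Fin N → Ls A, (∀ i, m i ∈ M) → (of m).det ∈ Rg)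
    (ι : Fin N ↪ σ) (Bm : Matrix σ σ (Ls A)) (hm : ∀ p, (fun i => Bm (ι i) p) ∈ M)
    (h1 : ∀ q, q ∉ Set.range ι → ∀ p, ∃ c : A, Bm q p = HahnSeries.C c) : Bm.det ∈ Rg := by
  classical
  choose! k hk using h1
  let c : Equiv.Perm σ → A := fun π => ∏ q ∈ (Finset.univ.map ι)ᶜ, k q (π q)
  have hc : ∀ π : Equiv.Perm σ, ∏ q, Bm q (π q) = c π • ∏ i, Bm (ι i) (π (ι i)) := fun π => by
    rw [← Finset.prod_mul_prod_compl (Finset.univ.map ι), Finset.prod_map, mul_comm, ← C_mul,
      map_prod]
    congr 1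
    refine Finset.prod_congr rfl fun q hq => hk q ?_ _
    rintro ⟨i, rfl⟩
    exact Finset.mem_compl.1 hq (Finset.mem_map_of_mem _ (Finset.mem_univ i))
  have hd : Bm.det = ∑ π : Equiv.Perm σ, Equiv.Perm.sign π • c π • ∏ i, Bm (ι i) (π (ι i)) := by
    rw [← det_transpose, det_apply]
    exact Finset.sum_congr rfl fun π _ => by rw [← hc]; rfl
  have ht : ∀ τ : Equiv.Perm (Fin N), Bm.det = ∑ π : Equiv.Perm σ,
      Equiv.Perm.sign π • c π • Equiv.Perm.sign τ • ∏ i, Bm (ι i) (π (ι (τ i))) := fun τ => by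
    rw [hd, ← Equiv.sum_comp (Equiv.mulRight (τ.viaFintypeEmbedding ι))]
    refine Finset.sum_congr rfl fun π _ => ?_
    have e1 : c (π * τ.viaFintypeEmbedding ι) = c π := Finset.prod_congr rfl fun q hq => by
      rw [Equiv.Perm.mul_apply, Equiv.Perm.viaFintypeEmbedding_apply_notMem_range]
      rintro ⟨i, rfl⟩
      exact Finset.mem_compl.1 hq (Finset.mem_map_of_mem _ (Finset.mem_univ i))
    rw [Equiv.coe_mulRight, e1, map_mul, Equiv.Perm.viaFintypeEmbedding_sign, mul_smul,
      smul_comm (Equiv.Perm.sign τ)]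
    simp only [Equiv.Perm.mul_apply, Equiv.Perm.viaFintypeEmbedding_apply_image]
  have hs : (Fintype.card (Equiv.Perm (Fin N))) • Bm.det ∈ Rg := by
    rw [← Finset.card_univ, ← Finset.sum_const, Finset.sum_congr rfl fun τ _ => ht τ,
      Finset.sum_comm]
    refine Rg.sum_mem fun π _ => ?_
    rw [← Finset.smul_sum, ← Finset.smul_sum]
    have h2 := vol (fun j i => Bm (ι i) (π (ι j))) fun j => hm _
    rw [det_apply] at h2
    exact Rg.smul_of_tower_mem _ (Rg.smul_mem _ h2)
  have hn : ((Fintype.card (Equiv.Perm (Fin N)) : ℕ) : ℂ) ≠ 0 := Nat.cast_ne_zero.2 Fintype.card_ne_zero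
  have h3 := Rg.smul_mem (algebraMap ℂ A ((Fintype.card (Equiv.Perm (Fin N)) : ℕ) : ℂ)⁻¹) hs
  rwa [← Nat.cast_smul_eq_nsmul A, smul_smul, ← map_natCast (algebraMap ℂ A), ← map_mul,
    inv_mul_cancel₀ hn, map_one, one_smul] at h3

/-- The series in `tⁿ A[[t]]`. -/
def Os (A : Type) [CommRing A] (n : ℤ) : Submodule A (Ls A) where
  carrier := {w | Ord n w}
  add_mem' := Ord.add
  zero_mem' := Ord.zero n
  smul_mem' c _ h := h.smul c

/-- The functions on `E_A - o`. -/
def Rm (E : Ell) (A : Type) [CommRing A] [Algebra ℂ A] : Submodule A (Ls A) where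
  carrier := {w | E.Reg w}
  add_mem' := by
    rintro _ _ ⟨p, q, rfl⟩ ⟨p', q', rfl⟩
    exact ⟨p + p', q + q', by rw [Polynomial.eval₂_add, Polynomial.eval₂_add]; ring⟩
  zero_mem' := ⟨0, 0, by simp⟩
  smul_mem' := by
    rintro c _ ⟨p, q, rfl⟩
    refine ⟨Polynomial.C c * p, Polynomial.C c * q, ?_⟩
    rw [Polynomial.eval₂_mul, Polynomial.eval₂_mul, Polynomial.eval₂_C, ← C_mul]
    ring

theorem ord_prod {n : ℤ} {ι : Type} (s : Finset ι) {u : ι → Ls A} (h : ∀ i, Ord n (u i)) :
    Ord (s.card * n) (∏ i ∈ s, u i) := by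
  classical
  induction s using Finset.induction_on with
  | empty => simpa using Ord.one
  | insert a s ha ih =>
    rw [Finset.prod_insert ha, Finset.card_insert_of_notMem ha]
    have := (h a).mul' ih
    rwa [show n + s.card * n = ((s.card + 1 : ℕ) : ℤ) * n by push_cast; ring] at this

theorem ord_det {n : ℤ} {m : Fin N → Fin N → Ls A} (h : ∀ i, m i ∈ On N A n) :
    Ord (N * n) (of m).det := by
  rw [det_apply]
  refine Ord.sum _ fun π _ => ?_
  have h2 := ord_prod (n := n) Finset.univ (u := fun i => of m (π i) i) fun i => h (π i) i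
  rw [Finset.card_univ, Fintype.card_fin] at h2
  exact (Os A _).smul_of_tower_mem _ h2

/-- A finite set of indices which contains the level `0` and carries `pol ∘ lin v - 1`. -/
structure Big (v : ℕ × Fin N → Fin N → Ls A) (s : Finset (ℕ × Fin N)) : Prop where
  zero : ∀ i, (0, i) ∈ s
  out : ∀ x p, p ∉ s → pol N A (lin v x) p = x p

theorem exists_big {v : ℕ × Fin N → Fin N → Ls A} (h : FinRank (pol N A ∘ₗ lin v - 1)) :
    ∃ s, Big v s := by
  obtain ⟨s, hs⟩ := h
  refine ⟨s ∪ {0} ×ˢ Finset.univ, fun i => Finset.mem_union_right _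
    (Finset.mem_product.2 ⟨Finset.mem_singleton.2 rfl, Finset.mem_univ _⟩), fun x p hp => ?_⟩
  exact sub_eq_zero.1 (hs x p fun h => hp (Finset.mem_union_left _ h))

variable {v : ℕ × Fin N → Fin N → Ls A} {s : Finset (ℕ × Fin N)}

theorem Big.ne (h : Big v s) {p : ℕ × Fin N} (hp : p ∉ s) : p.1 ≠ 0 := fun h0 =>
  hp ((Prod.ext h0 rfl : p = (0, p.2)) ▸ h.zero p.2)

theorem Big.th (h : Big v s) : Th v = (minor (tk v) s).det := by
  rw [Th]
  refine (fdet_eq (s := s) fun x p hp => ?_).trans (by congr)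
  induction x using Finsupp.induction_linear with
  | zero => rw [map_zero]; rfl
  | add x y hx hy => rw [map_add, Finsupp.add_apply, hx, hy, add_zero]
  | single q a =>
    rw [← mul_one a, ← smul_eq_mul, ← Finsupp.smul_single, map_smul, Finsupp.smul_apply,
      LinearMap.sub_apply, Finsupp.sub_apply, tk_single, ex_succ _ (h.ne hp), ← lin_single v q,
      h.out _ _ hp, Module.End.one_apply, Finsupp.single_apply, Finsupp.single_apply]
    split_ifs <;> simp

/-- The rows of level `0`. -/
def Big.ι (h : Big v s) : Fin N ↪ s :=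
  ⟨fun i => ⟨(0, i), h.zero i⟩, fun _ _ e => congrArg (fun p : s => p.1.2) e⟩

theorem Big.ne' (h : Big v s) {q : s} (hq : q ∉ Set.range h.ι) : q.1.1 ≠ 0 := fun h0 =>
  hq ⟨q.1.2, Subtype.ext (Prod.ext h0.symm rfl)⟩

theorem minor_tk (q p : s) : minor (tk v) s q p = ex (v p) q := by
  rw [minor, of_apply, tk_single]

/-- The function `Θ` lies in the span of the determinants. -/
theorem Th_mem [Algebra ℂ A] (hv : FinRank (pol N A ∘ₗ lin v - 1)) (Rg : Submodule A (Ls A))
    (vol : ∀ m : Fin N → Fin N → Ls A, (∀ i, m i ∈ LinearMap.range (lin v)) → (of m).det ∈ Rg) :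
    Th v ∈ Rg := by
  obtain ⟨s, h⟩ := exists_big hv
  rw [h.th]
  refine det_mem Rg _ vol h.ι _ (fun p => ?_) fun q hq p => ⟨_, (minor_tk q p).trans
    (ex_succ _ (h.ne' hq))⟩
  have : (fun i => minor (tk v) s (h.ι i) p) = v p := funext fun i => (minor_tk _ p).trans
    (ex_zero _ i)
  rw [this]
  exact mem_range_lin v p

/-- The polar part of positive level. -/
def up (N : ℕ) (A : Type) [CommRing A] : Qm N (Ls A) →ₗ[Ls A] (Fin N → Ls A) :=
  Finsupp.linearCombination (Ls A) fun p => if p.1 = 0 then 0 else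
    fun i => std N A p i

theorem up_lv (u : Fin N → Ls A) : up N A (lv N (Ls A) u) = 0 := by
  rw [lv, Fintype.linearCombination_apply, map_sum]
  refine Finset.sum_eq_zero fun i _ => ?_
  rw [map_smul, up, Finsupp.linearCombination_single, if_pos rfl, smul_zero, smul_zero]

theorem up_cq (z : Qm N A) : up N A (cq z) = lin (std N A) (hi N A z) := by
  induction z using Finsupp.induction_linear with
  | zero => rw [cq, Finsupp.mapRange_zero, map_zero, map_zero, map_zero]
  | add x y hx hy =>
    rw [cq, Finsupp.mapRange_add (map_add _), map_add, map_add, map_add, ← hx, ← hy]; rfl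
  | single p a =>
    rw [cq, Finsupp.mapRange_single, up, Finsupp.linearCombination_single]
    split_ifs with h
    · have e : hi N A (Finsupp.single p a) = 0 := q_ext (fun i => hi_zero _ i) fun q hq => by
        rw [hi_succ _ hq, Finsupp.single_eq_of_ne fun e : q = p => hq (e ▸ h)]; rfl
      rw [e, map_zero, smul_zero]
    · have e : hi N A (Finsupp.single p a) = Finsupp.single p a :=
        q_ext (fun i => by rw [hi_zero, Finsupp.single_eq_of_ne fun e : (0, i) = p => h (e ▸ rfl)])
          fun q hq => hi_succ _ hq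
      rw [e, lin, Finsupp.linearCombination_single, csmul]

theorem on_iff {w : Fin N → Ls A} : w ∈ On N A (-1) ↔ hi N A (pol N A w) = 0 := by
  constructor
  · intro h
    exact q_ext (fun i => hi_zero _ i) fun p hp => by
      rw [hi_succ _ hp, pol_apply, h _ _ (by omega)]; rfl
  · intro h i k hk
    have h1 := congrArg (fun z : Qm N A => z ((-k - 1).toNat, i)) h
    rw [hi_succ _ (by change (-k - 1).toNat ≠ 0; omega), pol_apply] at h1
    rwa [show (-(((-k - 1).toNat : ℕ) + 1 : ℤ)) = k by omega] at h1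

theorem on_sub (w : Fin N → Ls A) : w - lin (std N A) (hi N A (pol N A w)) ∈ On N A (-1) :=
  on_iff.2 (by rw [map_sub, pol_lin_std, map_sub, hi_hi, sub_self])

/-- The form of `Θ` without the polar parts of positive level at the level `0`. -/
theorem Th_low (hv : FinRank (pol N A ∘ₗ lin v - 1)) (h : Big v s) : Th v =
    (of fun q p : s => if q.1.1 = 0 then (v p - lin (std N A) (hi N A (pol N A (v p)))) q.1.2
      else HahnSeries.C (pol N A (v p) q)).det := by
  have h1 : fdet (1 + lv N (Ls A) ∘ₗ (-up N A)) = 1 := by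
    have : (-up N A) ∘ₗ lv N (Ls A) = 0 := LinearMap.ext fun u => by
      rw [LinearMap.comp_apply, LinearMap.neg_apply, up_lv, neg_zero]; rfl
    rw [fdet_lv, this, map_zero, add_zero, det_one]
  have h2 := fdet_mul (fr_add fr_one (finRank_lv (-up N A))) (tk_fin hv)
  have h3 : ∀ p q, ((1 + lv N (Ls A) ∘ₗ (-up N A)) * tk v) (Finsupp.single p 1) q =
      if q.1 = 0 then (v p - lin (std N A) (hi N A (pol N A (v p)))) q.2
        else HahnSeries.C (pol N A (v p) q) := fun p q => by
    rw [Module.End.mul_apply, tk_single, LinearMap.add_apply, Finsupp.add_apply,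
      LinearMap.comp_apply, Module.End.one_apply]
    split_ifs with hq
    · rw [(Prod.ext hq rfl : q = (0, q.2)), ex_zero, lv_zero, LinearMap.neg_apply, ex, map_add,
        up_lv, add_zero, up_cq, Pi.neg_apply, Pi.sub_apply, sub_eq_add_neg]
    · rw [lv_succ _ hq, add_zero, ex_succ _ hq]
  rw [h1, one_mul] at h2
  rw [Th, ← h2]
  refine (fdet_eq (s := s) fun x p hp => ?_).trans ?_
  · induction x using Finsupp.induction_linear with
    | zero => rw [map_zero]; rfl
    | add x y hx hy => rw [map_add, Finsupp.add_apply, hx, hy, add_zero]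
    | single q a =>
      rw [← Finsupp.smul_single_one, map_smul, Finsupp.smul_apply,
        LinearMap.sub_apply, Finsupp.sub_apply, h3, if_neg (h.ne hp), ← lin_single v q,
        h.out _ _ hp, Module.End.one_apply, Finsupp.single_apply, Finsupp.single_apply]
      split_ifs <;> simp
  · congr
    ext1 q p
    exact h3 p q

theorem Th_ord [Algebra ℂ A] (hv : FinRank (pol N A ∘ₗ lin v - 1)) : Ord (-N) (Th v) := by
  obtain ⟨s, h⟩ := exists_big hv
  rw [Th_low hv h]
  refine det_mem (Os A (-N)) (On N A (-1)) (fun m hm => ?_) h.ι _ (fun p => on_sub (v p))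
    fun q hq p => ⟨_, if_neg (h.ne' hq)⟩
  have := ord_det hm
  rwa [mul_neg, mul_one] at this

theorem ord_tp {w : Ls A} (h : Ord (-1) w) : Ord 0 (tp A 1 * w) := by
  have := (Ord.tp (A := A) 1).mul' h
  rwa [add_neg_cancel] at this

/-- The leading coefficient of `Θ` is the theta function of `V`. -/
theorem Th_lead (hv : FinRank (pol N A ∘ₗ lin v - 1)) :
    (Th v).coeff (-N) = fdet (pol N A ∘ₗ lin v) := by
  obtain ⟨s, h⟩ := exists_big hv
  have e := Th_low hv h
  set Bm := (of fun q p : s => if q.1.1 = 0 then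
    (v p - lin (std N A) (hi N A (pol N A (v p)))) q.1.2 else HahnSeries.C (pol N A (v p) q))
  let d : s → Ls A := fun q => if q.1.1 = 0 then tp A 1 else 1
  have hd : ∏ q, d q = tp A N := by
    rw [← Finset.prod_mul_prod_compl (Finset.univ.map h.ι), Finset.prod_map,
      Finset.prod_eq_one (s := (Finset.univ.map h.ι)ᶜ), mul_one]
    · change ∏ i : Fin N, tp A 1 = _
      rw [Finset.prod_const, Finset.card_univ, Fintype.card_fin, tp, HahnSeries.single_pow, one_pow,
        nsmul_one]
      rfl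
    · intro q hq
      refine if_neg (h.ne' ?_)
      rintro ⟨i, rfl⟩
      exact Finset.mem_compl.1 hq (Finset.mem_map_of_mem _ (Finset.mem_univ i))
  have hi' : IntM (diagonal d * Bm) := fun q p => by
    rw [diagonal_mul]
    by_cases hq : q.1.1 = 0
    · simp only [d, Bm, of_apply, if_pos hq]
      exact ord_tp (on_sub (v p) _)
    · simp only [d, Bm, of_apply, if_neg hq, one_mul]
      exact Ord.C _
  have h4 := det_coeff hi'
  rw [det_mul, det_diagonal, hd, coeff_tp_mul, zero_sub, ← e] at h4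
  rw [h4]
  refine Eq.trans ?_ (fdet_eq (s := s) fun x p hp => sub_eq_zero.2 (h.out x p hp)).symm
  congr
  ext1 q p
  rw [map_apply, diagonal_mul, minor, of_apply, LinearMap.comp_apply, lin_single]
  by_cases hq : q.1.1 = 0
  · simp only [d, Bm, of_apply, if_pos hq]
    have h5 := congrArg (fun z : Qm N A => z q) (map_sub (pol N A) (v p)
      (lin (std N A) (hi N A (pol N A (v p)))))
    have h6 : hi N A (pol N A (v p)) q = 0 := by
      rw [(Prod.ext hq rfl : q.1 = (0, q.1.2))]; exact hi_zero _ _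
    simp only [pol_lin_std, Finsupp.sub_apply, h6, sub_zero] at h5
    rw [← h5, pol_apply, coeff_tp_mul, hq]
    rfl
  · simp only [d, Bm, of_apply, if_neg hq, one_mul]
    exact HahnSeries.coeff_single_same _ _

end

end Vale.Agent.P286EB
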