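import Vale.Agent.P286EB.Rnat
import Vale.Agent.P286EXV.L0
import Vale.Agent.P286EXK.A
import Vale.Agent.P286EX7.Kosz

/-!
# The evaluation theorem
-/

set_option linter.all false

namespace Vale.Agent.P286EX

open CategoryTheory TensorProduct Vale.Agent.P286 Vale.Agent.P286.St Vale.Agent.P286.H847
  Vale.Agent.P286.H710 Vale.Agent.P286.H697 Vale.Agent.P286E
open Vale.Agent.P286.H761 (CO CS)

noncomputable section

variable {I : Type} [SmallCategory I] {D : CD I} {G : Grp} {s : ℂ} {K : GK G} {xd : XD D}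
  {U : Rep K} {P : PD K xd s U} {H : HG (K.gs D s)} {i : I} {Φ : CS} (L : LV P H i Φ)

namespace LV

theorem kev_eq (k : Fin U.n) (μ : (Hm (P.σ0 (Zo xd i)) (H.F (Zo xd i))).V) :
    (P.kev i (H.K (Zo xd i)) k).f μ = (H.pi (Zo xd i)).f (μ (P.o0 _ k)) :=
  P.kev_apply i (H.K (Zo xd i)) k μ

/-- The data in level `0`. -/
def hl (e : Fin U.n → GD.Hom Φ.Tot (H.K (Zo xd i)).M)
    (he : ∀ k x, (e k).f x = (H.pi (Zo xd i)).f (L.n0 x (P.q1 _ (P.uv _ k)))) (h : FC H.fa) :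
    HL P H i Φ.Tot e where
  n0 x := L.n0 x
  e_eq := he
  io := L.io
  r := L.r
  r_io := L.r_io
  ext := L.ext
  ext_v := L.ext_v
  EG := EG P i
  EG_out := EG_out
  io_v := L.io_v
  hat := hat P H i
  hat_v := hat_v
  c0 := H.kc (Zo xd i) ∅
  r_v := L.r_v
  kap_q := H.kap_tot xd (P.σ0 (Zo xd i)) (P.fr0 (Zo xd i)) h (ptF K xd s i)
  aug := H.gau.aug K xd (P.σ0 (Zo xd i))
  aug_q := H.gau.aug_q K xd (P.σ0 (Zo xd i))
  aug_zero := H.gau.aug_zero K xd (P.σ0 (Zo xd i))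
  ev_inj m μ h1 h2 := P.kosz_inj i (H.K (Zo xd i)) m μ h1 fun k => (h2 k).of_eq (kev_eq k μ).symm
  ev_sur m z hz := (P.kosz_sur i (H.K (Zo xd i)) m z hz).imp fun μ h1 =>
    ⟨h1.1, fun k => (kev_eq k μ).symm.trans (h1.2 k)⟩
  T := (H.PL (Zo xd i)).M
  piK := H.piK (Zo xd i)
  piK_kd := H.piK_kd (Zo xd i)
  kap0 := H.kap0 (Zo xd i)
  kap0_q := H.kap0_q (Zo xd i) h
  kap0_piK := H.kap0_piK (Zo xd i)
  one := H.on (Zo xd i)
  kap0_one := H.kap0_on (Zo xd i)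
  hr := H.hr (Zo xd i)
  hr_one := H.hr_on (Zo xd i)
  hr_piK := H.hr_piK (Zo xd i)

include L in
/-- The evaluation identifies the cohomology of the total with the equivariant classes. -/
theorem hit (e : Fin U.n → GD.Hom Φ.Tot (H.K (Zo xd i)).M)
    (he : ∀ k x, (e k).f x = (H.pi (Zo xd i)).f (L.n0 x (P.q1 _ (P.uv _ k)))) (h : FC H.fa) :
    Hit xd U H.fa i Φ.Tot e := (L.hl e he h).hit

end LV

end

end Vale.Agent.P286EX
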