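import Vale.Agent.P286EB.Cr
import Vale.Agent.P286EN.NF
import Vale.Agent.P286EF.Grp
import Vale.Agent.P286E.QD

/-!
# Normal forms on the charts: definitions and statements
-/

set_option linter.all false

namespace Vale.Agent.P286EB

open Matrix Vale.Agent.P286 Vale.Agent.P286E Vale.Agent.P286EN
open Vale.Agent.P286ER (On IsOb bcM Sst)
open Vale.Agent.P286ET (Ix)

noncomputable section

attribute [-instance] HahnSeries.powerSeriesAlgebra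

variable {A B : Type} [CommRing A] [Algebra ℂ A] [CommRing B] [Algebra ℂ B] {N : ℕ} {E : Ell}

/-- The square root of `x - c`. -/
def sr (c : A) : Ls A := rho (N := 1) (of fun _ _ => c) 0 0

/-- The inverse of `sr c`. -/
def sI (c : A) : Ls A := rhoI (N := 1) (of fun _ _ => c) 0 0

/-- The root `e`. -/
def ea (e : Rt E) (A : Type) [CommRing A] [Algebra ℂ A] : A := algebraMap ℂ A e.e

/-- The constant `f'(e)`. -/
def da (e : Rt E) (A : Type) [CommRing A] [Algebra ℂ A] : A := algebraMap ℂ A e.d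

/-- The value `f(x)`. -/
def fv (E : Ell) (x : A) : A := x ^ 3 + algebraMap ℂ A E.a * x + algebraMap ℂ A E.b

/-- The value `g(x) = f(x) / (x - e)`. -/
def gv (e : Rt E) (x : A) : A := x ^ 2 + ea e A * x + (ea e A ^ 2 + algebraMap ℂ A E.a)

/-- The twist of the part `π M` of `M` by the line bundle `J = s R + (y / s) R` of order two,
`s² = x - e`. -/
def tw (e : Rt E) (π : Matrix (Fin N) (Fin N) (Ls A)) (M : Submodule A (Fin N → Ls A)) :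
    Submodule A (Fin N → Ls A) :=
  M.comap (act (1 - π)) ⊓ M.comap (act (sr (ea e A) • π)) ⊓
    M.comap (act ((ys E A * sI (ea e A)) • π))

/-- The series `z` lies in `J`. -/
def InJ (e : Rt E) (z : Ls A) : Prop :=
  E.Reg (sr (ea e A) * z) ∧ E.Reg (ys E A * sI (ea e A) * z)

/-- All the minors of size two vanish. -/
def Rk1 {R : Type} [CommRing R] (π : Matrix (Fin N) (Fin N) R) : Prop :=
  ∀ i j k l, π i j * π k l = π i l * π k j

/-- The projector on the trivial summand: `0` for `SL_2`, of rank one for `SO_3`. -/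
structure Prj (G : Grp) (ξ : Fin 3 → A) (π : Matrix (Fin G.N) (Fin G.N) A) : Prop where
  adj : πᵀ * G.F.map (algebraMap ℂ A) = G.F.map (algebraMap ℂ A) * π
  tr : trace π = (G.N : A) - 2
  rk : Rk1 π
  ker : G.ht ξ * π = 0

/-- A point of the chart `i`. -/
structure Pt (e : Rt E) (G : Grp) (i : Ix) (x : A) (ξ : Fin 3 → A)
    (π : Matrix (Fin G.N) (Fin G.N) A) : Prop where
  sq : ξ ⬝ᵥ ξ = fv E x
  ub : i = .b → IsUnit (gv e x) ∧ π = 1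
  un : i = .n → IsUnit (fv E x)
  pr : i ≠ .b → Prj G ξ π

/-- The matrix `X`. -/
def Xm (e : Rt E) (G : Grp) : Ix → A → (Fin 3 → A) → Matrix (Fin G.N) (Fin G.N) A →
    Matrix (Fin G.N) (Fin G.N) A
  | .b, x, ξ, _ => ea e A • 1 + Ring.inverse (gv e x) • (G.ht ξ * G.ht ξ)
  | _, x, _, π => ea e A • π + x • (1 - π)

/-- The lattice of a point of a chart. -/
def FM (e : Rt E) (G : Grp) (i : Ix) (x : A) (ξ : Fin 3 → A) (π : Matrix (Fin G.N) (Fin G.N) A) :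
    Submodule A (Fin G.N → Ls A) := tw e (cm π) (U E (Xm e G i x ξ π) (G.ht ξ))

/-- The function `Θ` of the lattice. -/
def thM (e : Rt E) : Ix → A → Ls A
  | .b, x => HahnSeries.C (da e A) - HahnSeries.C (x - ea e A) * (xs A - HahnSeries.C (ea e A))
  | _, x => xs A - HahnSeries.C x

/-- The function `Θ` of the adjoint lattice for `SL_2`. -/
def th0 (E : Ell) (x : A) : Ls A :=
  HahnSeries.C ((3 * x ^ 2 + algebraMap ℂ A E.a) ^ 2 - 8 * x * fv E x) -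
    HahnSeries.C (4 * fv E x) * xs A

/-- The homogeneous cubic `∏ (α + β e_i)` in the coefficients of `θ = α + β x + γ y`. -/
def fh (E : Ell) (θ : Ls A) : A :=
  θ.coeff 0 ^ 3 + algebraMap ℂ A E.a * θ.coeff 0 * θ.coeff (-2) ^ 2 -
    algebraMap ℂ A E.b * θ.coeff (-2) ^ 3

/-- The equations of the charts. -/
def eqn (E : Ell) : Ix → Ls A → A
  | .a, θ => θ.coeff (-2)
  | .b, θ => fh E θ
  | .n, θ => θ.coeff (-2) * fh E θ

/-- The coordinate in the chart `i` of a point of the chart `j`. -/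
def kx (e : Rt E) : Ix → Ix → A → A
  | .b, .n, x => ea e A + da e A * Ring.inverse (x - ea e A)
  | _, _, x => x

/-- The factor `c`. -/
def kc (e : Rt E) : Ix → Ix → A → A
  | .b, .n, x => -(da e A * Ring.inverse (x - ea e A) ^ 2)
  | _, _, _ => 1

/-- The comparison of the normal forms of two charts. -/
def trn (e : Rt E) (G : Grp) : Ix → Ix → A → (Fin 3 → A) → Matrix (Fin G.N) (Fin G.N) A →
    Matrix (Fin G.N) (Fin G.N) (Ls A)
  | .b, .n, x, ξ, π => cm π + (sI (ea e A) * sI (kx e .b .n x) * sI x) • ((ys E A • 1 +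
      ((xs A - HahnSeries.C (ea e A)) * HahnSeries.C (Ring.inverse (x - ea e A))) • cm (G.ht ξ)) *
        (1 - cm π))
  | _, _, _, _, _ => 1

/-- The element of `so_3` with the coordinates `ξ`. -/
def y3 (ξ : Fin 3 → A) : Matrix (Fin 3) (Fin 3) A := SO3.ht ξ

/-- The element of `sl_2` with the coordinates `ξ`. -/
def y2 (ξ : Fin 3 → A) : Matrix (Fin 2) (Fin 2) A := SL2.ht ξ

/-- The variety of the pairs `X`, `Y`, `X = e + Z`, `Y = ht ξ`, of the neutral component of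
`Bun_{SO_3}`. -/
structure Vv (e : Rt E) (x : A) (Z : Matrix (Fin 3) (Fin 3) A) (ξ : Fin 3 → A) : Prop where
  sym : Zᵀ = Z
  sq : Z * Z = (x - ea e A) • Z
  tr : trace Z = 2 * (x - ea e A)
  adj : Z.adjugate = (x - ea e A) ^ 2 • 1 - (x - ea e A) • Z
  zy : Z * y3 ξ = (x - ea e A) • y3 ξ
  yy : y3 ξ * y3 ξ = gv e x • Z

/-! ### Statements -/

/-- The rule of Cramer. -/
def CRD : Prop := ∀ (E : Ell) (A : Type) [CommRing A] [Algebra ℂ A] (N : ℕ)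
  (v : ℕ × Fin N → Fin N → Ls A) (M : Submodule A (Fin N → Ls A)), Adm v →
  LinearMap.range (lin v) = M → (∀ m : Fin N → Fin N → Ls A, (∀ i, m i ∈ M) → E.Reg (of m).det) →
  ∀ l : Ls A →ₗ[A] A, l (Th v) = 1 → M ⊔ On N A (-1) = ⊤ ∧
  ∃ (n : ℕ) (S : Matrix (Fin N) (Fin n) (Ls A)) (D : Matrix (Fin n) (Fin N) (Ls A)),
    (∀ q, (fun i => S i q) ∈ M ⊓ On N A (-1)) ∧ S * D = Th v • 1 ∧ OrdM (1 - N) D ∧
    (∀ m ∈ M, ∀ q, E.Reg ((D *ᵥ m) q)) ∧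
    ∀ m ∈ M ⊓ On N A (-1), ∃ c : Fin n → A, m = S *ᵥ (HahnSeries.C ∘ c) ∧
      D *ᵥ m = Th v • (HahnSeries.C ∘ c)

/-- The Pluecker property. -/
def PL : Prop := ∀ (A : Type) [CommRing A] (N : ℕ) (v : ℕ × Fin N → Fin N → Ls A)
  (M : Submodule A (Fin N → Ls A)), Adm v → LinearMap.range (lin v) = M → M ⊔ On N A (-1) = ⊤ →
  ∀ S : Matrix (Fin N) (Fin N) (Ls A), Col M S → OrdM (-1) S → ∃ c : A, S.det = c • Th v

/-- An admissible basis from a basis of `M ∩ t⁻ᵏ A[[t]]^N`. -/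
def ADMK : Prop := ∀ (A : Type) [CommRing A] (N k : ℕ) (M : Submodule A (Fin N → Ls A))
  (b : (Fin k × Fin N → A) →ₗ[A] (Fin N → Ls A)) (L : (Fin N → Ls A) →ₗ[A] (Fin k × Fin N → A))
  (n : ℤ), M ⊔ On N A (-k) = ⊤ → LinearMap.range b = M ⊓ On N A (-k) → (∀ z, L (b z) = z) →
  (∀ w ∈ On N A n, L w = 0) → ∃ v, Adm v ∧ LinearMap.range (lin v) = M

/-- An admissible basis from a basis of `H⁰(V(o))`. -/
def ADM1 : Prop := ∀ (A : Type) [CommRing A] (N : ℕ) (M : Submodule A (Fin N → Ls A))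
  (S : Matrix (Fin N) (Fin N) (Ls A)) (l : Ls A →ₗ[A] A) (n : ℤ), M ⊔ On N A (-1) = ⊤ →
  Col M S → OrdM (-1) S → (∀ m ∈ M ⊓ On N A (-1), ∃ c : Fin N → A, m = S *ᵥ (HahnSeries.C ∘ c)) →
  l S.det = 1 → (∀ w, Ord n w → l w = 0) →
  ∃ v, Adm v ∧ LinearMap.range (lin v) = M ∧ Th v = S.det

/-- The lattices of the charts: admissible basis, functions, form, `H⁰`. -/
def FAMM : Prop := ∀ (E : Ell) (e : Rt E) (G : Grp), G = SL2 ∨ G = SO3 →
  ∀ (A : Type) [CommRing A] [Algebra ℂ A] (i : Ix) (x : A) (ξ : Fin 3 → A)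
  (π : Matrix (Fin G.N) (Fin G.N) A), Pt e G i x ξ π →
  MPt E (Xm e G i x ξ π) (G.ht ξ) ∧ π * π = π ∧ π * Xm e G i x ξ π = Xm e G i x ξ π * π ∧
  π * G.ht ξ = G.ht ξ * π ∧ Stab (Rg E A) (FM e G i x ξ π) ∧
  (∀ m ∈ FM e G i x ξ π, ∀ m' ∈ FM e G i x ξ π, E.Reg (m ⬝ᵥ cst A G.F *ᵥ m')) ∧
  (∃ (v : ℕ × Fin G.N → Fin G.N → Ls A) (u : Aˣ), Adm v ∧
    LinearMap.range (lin v) = FM e G i x ξ π ∧ Th v = (u : A) • thM e i x) ∧
  (i ≠ .b → ∀ m, m ∈ FM e G i x ξ π ⊓ On G.N A 0 ↔ ∃ c : Fin G.N → A, m = HahnSeries.C ∘ (π *ᵥ c))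

/-- The determinant of `U(X, Y)` for `SO_3`. -/
def VOL : Prop := ∀ (E : Ell) (e : Rt E) (A : Type) [CommRing A] [Algebra ℂ A]
  (X : Matrix (Fin 3) (Fin 3) A) (ξ : Fin 3 → A), Xᵀ = X → MPt E X (y3 ξ) →
  ((∀ m : Fin 3 → Fin 3 → Ls A, (∀ i, m i ∈ U E X (y3 ξ)) → InJ e (of m).det) ↔
    ∃ x, Vv e x (X - ea e A • 1) ξ)

/-- The volume form on the lattices of the charts. -/
def FAMV : Prop := ∀ (E : Ell) (e : Rt E) (G : Grp), G = SL2 ∨ G = SO3 →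
  ∀ (A : Type) [CommRing A] [Algebra ℂ A] (i : Ix) (x : A) (ξ : Fin 3 → A)
  (π : Matrix (Fin G.N) (Fin G.N) A), Pt e G i x ξ π →
  ∀ m : Fin G.N → Fin G.N → Ls A, (∀ k, m k ∈ FM e G i x ξ π) → E.Reg (of m).det

/-- Self-duality and stabilisers over reduced rings. -/
def RED : Prop := ∀ (E : Ell) (G : Grp), G = SL2 ∨ G = SO3 →
  ∀ (A : Type) [CommRing A] [Algebra ℂ A] [IsReduced A] (M : Submodule A (Fin G.N → Ls A)),
  ((∃ v, Adm v ∧ LinearMap.range (lin v) = M) →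
    (∀ m ∈ M, ∀ m' ∈ M, E.Reg (m ⬝ᵥ cst A G.F *ᵥ m')) →
    ∀ u, (∀ m ∈ M, E.Reg (u ⬝ᵥ cst A G.F *ᵥ m)) → u ∈ M) ∧
  ∀ T, IsOb E G M T → ∀ ξ, (∀ m ∈ M, G.hat ξ *ᵥ m ∈ M) → ξ ∈ LinearMap.range (lin T)

/-- The adjoint lattice for `SL_2`. -/
def ADU : Prop := ∀ (E : Ell) (A : Type) [CommRing A] [Algebra ℂ A] (x : A) (ξ : Fin 3 → A),
  ξ ⬝ᵥ ξ = fv E x → ∃ (T : ℕ × Fin 3 → Fin 3 → Ls A) (u : Aˣ), Adm T ∧
    (∀ p, ∀ m ∈ U (N := SL2.N) E (x • 1) (SL2.ht ξ),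
      SL2.hat (T p) *ᵥ m ∈ U (N := SL2.N) E (x • 1) (SL2.ht ξ)) ∧
    Th T = (u : A) • th0 E x

/-- The twist has no cohomology if `Θ` does not vanish at the point of order two. -/
def CPB : Prop := ∀ (E : Ell) (e : Rt E) (A : Type) [CommRing A] [Algebra ℂ A] (N : ℕ), N ≤ 3 →
  ∀ (v : ℕ × Fin N → Fin N → Ls A) (M : Submodule A (Fin N → Ls A)), Adm v →
  LinearMap.range (lin v) = M → Stab (Rg E A) M →
  (∀ m : Fin N → Fin N → Ls A, (∀ i, m i ∈ M) → E.Reg (of m).det) →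
  IsUnit ((Th v).coeff 0 + (Th v).coeff (-2) * ea e A) → Cpl (tw e 1 M)

/-- The trivial summand on the chart `a` of `SO_3`. -/
def CPA : Prop := ∀ (E : Ell) (e : Rt E) (A : Type) [CommRing A] [Algebra ℂ A] [IsReduced A]
  (v : ℕ × Fin 3 → Fin 3 → Ls A) (M : Submodule A (Fin 3 → Ls A)), Adm v →
  LinearMap.range (lin v) = M → Stab (Rg E A) M → (∀ m ∈ M, ∀ m' ∈ M, E.Reg (m ⬝ᵥ m')) →
  (∀ m : Fin 3 → Fin 3 → Ls A, (∀ i, m i ∈ M) → E.Reg (of m).det) →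
  IsUnit ((Th v).coeff (-2)) → ∃ W : Matrix (Fin 3) (Fin 3) (Ls A),
    Col M W ∧ IntM W ∧ trace (W * Wᵀ) = 1 ∧ Rk1 (W * Wᵀ) ∧ W * Wᵀ * W = W ∧
    Cpl (tw e (W * Wᵀ) M)

/-- The two components of the semistable locus of `SO_3` are disjoint. -/
def DISJ : Prop := ∀ (E : Ell) (A : Type) [CommRing A] [Algebra ℂ A] [IsReduced A]
  (v : ℕ × Fin 3 → Fin 3 → Ls A) (M : Submodule A (Fin 3 → Ls A)), Adm v →
  LinearMap.range (lin v) = M → (∀ m ∈ M, ∀ m' ∈ M, E.Reg (m ⬝ᵥ m')) →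
  (∀ m : Fin 3 → Fin 3 → Ls A, (∀ i, m i ∈ M) → E.Reg (of m).det) →
  ∀ l : Ls A →ₗ[A] A, l (Th v) = 1 →
  (Th v).coeff 0 * (Th v).coeff (-3) = 0 ∧ (Th v).coeff (-2) * (Th v).coeff (-3) = 0

/-- The adjoint action has determinant one. -/
def DETAD : Prop := ∀ G : Grp, G = SL2 ∨ G = SO3 → ∀ (A : Type) [CommRing A] [Algebra ℂ A]
  (a : Matrix (Fin G.N) (Fin G.N) (Ls A)), InG G a → (G.ad a).det = 1

/-- Normal form of an object of a chart. -/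
def NFO (G : Grp) (i : Ix) : Prop := ∀ (E : Ell) (e : Rt E)
  (A : Type) [CommRing A] [Algebra ℂ A] [IsReduced A] (v : ℕ × Fin G.N → Fin G.N → Ls A)
  (M : Submodule A (Fin G.N → Ls A)) (T : ℕ × Fin 3 → Fin 3 → Ls A), IsOb E G M T → Adm v →
  LinearMap.range (lin v) = M → IsUnit (eqn E i (Th v)) →
  ∃ (a : Matrix (Fin G.N) (Fin G.N) (Ls A)) (x : A) (ξ : Fin 3 → A)
    (π : Matrix (Fin G.N) (Fin G.N) A), InG G a ∧ IntM a ∧ Pt e G i x ξ π ∧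
    M = (FM e G i x ξ π).map (act a)

/-- The comparison of the charts `b` and `n`. -/
def TRN : Prop := ∀ (E : Ell) (e : Rt E) (G : Grp), G = SL2 ∨ G = SO3 →
  ∀ (A : Type) [CommRing A] [Algebra ℂ A] (x : A) (ξ : Fin 3 → A)
  (π : Matrix (Fin G.N) (Fin G.N) A), Pt e G .n x ξ π →
  Pt e G .b (kx e .b .n x) (kc e .b .n x • ξ) 1 ∧ InG G (trn e G .b .n x ξ π) ∧
  IntM (trn e G .b .n x ξ π) ∧
  (FM e G .b (kx e .b .n x) (kc e .b .n x • ξ) 1).map (act (trn e G .b .n x ξ π)) =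
    FM e G .n x ξ π

/-- The morphisms in normal form. -/
def HOM : Prop := ∀ (E : Ell) (e : Rt E) (G : Grp), G = SL2 ∨ G = SO3 →
  ∀ (A B : Type) [CommRing A] [Algebra ℂ A] [CommRing B] [Algebra ℂ B] (f : A →ₐ[ℂ] B)
  (i j : Ix), i ≤ j → ∀ (x : A) (ξ : Fin 3 → A) (π : Matrix (Fin G.N) (Fin G.N) A) (x' : B)
  (ξ' : Fin 3 → B) (π' : Matrix (Fin G.N) (Fin G.N) B), Pt e G i x ξ π → Pt e G j x' ξ' π' →
  ∀ g : Matrix (Fin G.N) (Fin G.N) (Ls B), (InG G g ∧ IntM g ∧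
    ∀ m ∈ FM e G i x ξ π, g *ᵥ (lm (f : A →+* B) ∘ m) ∈ FM e G j x' ξ' π') ↔
  ∃ h, G.Pt h ∧ g = trn e G i j x' ξ' π' * cm h ∧ f x = kx e i j x' ∧
    h * G.ht (f ∘ ξ) = kc e i j x' • (G.ht ξ' * h) ∧ (i ≠ .b → h * π.map f = π' * h)

end

end Vale.Agent.P286EB
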