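import Vale.Agent.P286EB.Cat
import Vale.Agent.P286EB8.Famt
import Vale.Agent.P286EP.Geo
import Vale.Agent.P286ED.Red
import Vale.Agent.P286ED.Adu
import Vale.Agent.P286EHM.Main
import Vale.Agent.P286EL.Trn
import Vale.Agent.P286EF.Dlth
import Vale.Agent.P286E64.Main
import Vale.Agent.P286EM.Main
import Vale.Agent.P286E67.Cpa
import Vale.Agent.P286EV.Main
import Vale.Agent.P286EY.Famv
import Vale.Agent.P286EN.Famm

/-!
# The charts of the semistable locus are equivalent to their normal forms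
-/

set_option linter.all false

namespace Vale.Agent.P286EB

open Matrix Vale.Agent.P286 Vale.Agent.P286E Vale.Agent.P286EN Vale.Agent.P286EO
open Vale.Agent.P286ET (Ix)

noncomputable section

attribute [-instance] HahnSeries.powerSeriesAlgebra

theorem famt : P286EB8.FAMT :=
  P286EB8.famt famm (P286EY.famv P286EV.vol famm) P286ED.red (P286ED.adu admk pl)

theorem smul_of {A : Type} [CommRing A] [Algebra ℂ A] {d : ℂ} (hd : d ≠ 0) {θ η : Ls A} {c : A}
    (h : algebraMap ℂ A d • θ = c • η) : θ = (algebraMap ℂ A d⁻¹ * c) • η := by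
  rw [mul_smul, ← h, smul_smul, ← map_mul, inv_mul_cancel₀ hd, map_one, one_smul]

theorem fam {G : Grp} (hG : G = SL2 ∨ G = SO3) : FAM G := by
  intro E e A _ _ _ i x ξ π h
  refine ⟨famt E e G hG A i x ξ π h, fun v hv hM => ?_,
    (P286EB8.thT_uni e G i x).imp fun _ h => h.1, ?_⟩
  · obtain ⟨-, -, -, -, -, -, ⟨w, u, h3, h4, h5⟩, -⟩ := famm E e G hG A i x ξ π h
    have h' := (hM.trans h4.symm).le
    rw [P286ER.th_chg hv h3 h', h5, smul_smul]
    exact P286EB8.eqn_unit h ((hv.isUnit_fdet_chg h3 h').mul u.isUnit)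
  · rintro rfl
    have hd : e.d ≠ 0 := (da_unit (A := ℂ) e).ne_zero
    simp only [thT, wt]
    split_ifs
    · refine ⟨(e.d ^ 2)⁻¹, smul_of (pow_ne_zero 2 hd) ?_⟩
      rw [map_pow]
      exact P286EB8.th0_kx e (h.un rfl)
    · refine ⟨(-e.d)⁻¹, smul_of (neg_ne_zero.2 hd) ?_⟩
      have h1 := congrArg Neg.neg (P286EB8.thM_kx e (h.un rfl))
      rw [← neg_smul, ← neg_smul, neg_neg] at h1
      rw [map_neg, pow_one]
      exact h1

theorem nfo {G : Grp} (hG : G = SL2 ∨ G = SO3) (i : Ix) : NFO G i := by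
  have h3 : NFO SO3 .a := P286EM.nfo3a (P286E67.cpa crd pl) P286EV.vol
  rcases hG with rfl | rfl <;> cases i
  · exact P286E27.nfo2a
  · exact P286E64.nfo2b'
  · exact P286E27.nfo2n famm
  · exact h3
  · exact P286EW.nfo3b crd pl P286E64.cpb' P286EV.vol
  · exact P286E27.nfo3n famm h3

/-- **The charts of the semistable locus.** -/
theorem catg : P286EP.CATG := fun E e G hG c s hs =>
  catG hG P286ED.red (fam hG) (P286EHM.hom famm P286EL.trn) P286EL.trn P286ER.bas
    (fun X => ⟨P286ER.bas_adm X, P286ER.bas_range X⟩) c (nfo hG)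
    (fun _ _ _ φ => dlth P286ED.detad hG φ) s (by
      rw [hs, wt]
      split_ifs <;> simp)

/-- **The geometry for `SL_2`.** -/
theorem geo1 (hO : OPEN2) : GEO1 := P286EP.geo1 hO catg

/-- **The geometry for `SO_3`.** -/
theorem geo2 (hO : OPEN3) (h3 : QP3) (hB : P286EJ.BKV) : GEO2 := P286EP.geo2 hO catg h3 hB

end

end Vale.Agent.P286EB
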