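import Vale.Agent.P286EB.IF

/-!
# The site of the points of the charts
-/

set_option linter.all false

namespace Vale.Agent.P286EB

open CategoryTheory Matrix Vale.Agent.P286 Vale.Agent.P286E Vale.Agent.P286EN
open Vale.Agent.P286ET (Ix)

noncomputable section

variable {A B : Type} [CommRing A] [Algebra ℂ A] [CommRing B] [Algebra ℂ B] {E : Ell}

/-- The cocycle of units. -/
def kr (e : Rt E) : Ix → Ix → A → A
  | .b, .n, x => x - ea e A
  | _, _, _ => 1

theorem map_ea (e : Rt E) (f : A →ₐ[ℂ] B) : f (ea e A) = ea e B := f.commutes _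

theorem map_da (e : Rt E) (f : A →ₐ[ℂ] B) : f (da e A) = da e B := f.commutes _

theorem da_unit (e : Rt E) : IsUnit (da e A) := (IsUnit.mk0 _ e.d_ne).map (algebraMap ℂ A)

theorem map_fv (f : A →ₐ[ℂ] B) (x : A) : f (fv E x) = fv E (f x) := by simp [fv]

theorem map_gv (e : Rt E) (f : A →ₐ[ℂ] B) (x : A) : f (gv e x) = gv e (f x) := by
  simp [gv, map_ea]

theorem ea_rt (e : Rt E) : fv E (ea e A) = 0 := by
  have h := congrArg (algebraMap ℂ A) e.rt
  simpa [fv, ea] using h

theorem fv_fac (e : Rt E) (x : A) : fv E x = (x - ea e A) * gv e x := by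
  have h := ea_rt (A := A) e
  rw [fv] at h
  rw [fv, gv]
  linear_combination h

theorem da_eq (e : Rt E) : da e A = gv e (ea e A) := by
  simp only [da, Rt.d, gv, ea, map_add, map_mul, map_pow, map_ofNat]
  ring

theorem map_inv (f : A →ₐ[ℂ] B) {x : A} (h : IsUnit x) :
    f (Ring.inverse x) = Ring.inverse (f x) := by
  obtain ⟨u, rfl⟩ := h
  rw [Ring.inverse_unit]
  exact (Ring.inverse_unit (Units.map (f : A →* B) u)).symm

theorem unit_sub (e : Rt E) {x : A} (h : IsUnit (fv E x)) : IsUnit (x - ea e A) :=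
  isUnit_of_mul_isUnit_left (fv_fac e x ▸ h)

theorem map_kx (e : Rt E) (f : A →ₐ[ℂ] B) (i j : Ix) {x : A} (h : j = .n → IsUnit (fv E x)) :
    f (kx e i j x) = kx e i j (f x) := by
  cases i <;> cases j <;> try rfl
  simp only [kx, map_add, map_mul, map_ea, map_da, map_inv f (unit_sub e (h rfl)), map_sub]

theorem map_kc (e : Rt E) (f : A →ₐ[ℂ] B) (i j : Ix) {x : A} (h : j = .n → IsUnit (fv E x)) :
    f (kc e i j x) = kc e i j (f x) := by
  cases i <;> cases j <;> try exact map_one f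
  simp only [kc, map_neg, map_mul, map_pow, map_ea, map_da, map_inv f (unit_sub e (h rfl)), map_sub]

theorem map_kr (e : Rt E) (f : A →ₐ[ℂ] B) (i j : Ix) (x : A) :
    f (kr e i j x) = kr e i j (f x) := by
  cases i <;> cases j <;> try exact map_one f
  simp only [kr, map_ea, map_sub]

theorem kx_self (e : Rt E) (i : Ix) (x : A) : kx e i i x = x := by cases i <;> rfl

theorem kc_self (e : Rt E) (i : Ix) (x : A) : kc e i i x = 1 := by cases i <;> rfl

theorem kr_self (e : Rt E) (i : Ix) (x : A) : kr e i i x = 1 := by cases i <;> rfl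

theorem kx_comp (e : Rt E) {i j k : Ix} (h : i ≤ j) (h' : j ≤ k) (x : A) :
    kx e i j (kx e j k x) = kx e i k x := by
  rcases h with rfl | rfl <;> rcases h' with rfl | rfl <;> cases i <;> rfl

theorem kc_comp (e : Rt E) {i j k : Ix} (h : i ≤ j) (h' : j ≤ k) (x : A) :
    kc e i j (kx e j k x) * kc e j k x = kc e i k x := by
  rcases h with rfl | rfl <;> rcases h' with rfl | rfl <;> cases i <;>
    first | exact mul_one _ | exact one_mul _

theorem kr_comp (e : Rt E) {i j k : Ix} (h : i ≤ j) (h' : j ≤ k) (x : A) :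
    kr e j k x * kr e i j (kx e j k x) = kr e i k x := by
  rcases h with rfl | rfl <;> rcases h' with rfl | rfl <;> cases i <;>
    first | exact mul_one _ | exact one_mul _

theorem kr_unit (e : Rt E) (i j : Ix) {x : A} (h : j = .n → IsUnit (fv E x)) :
    IsUnit (kr e i j x) := by
  cases i <;> cases j <;> first | exact isUnit_one | exact unit_sub e (h rfl)

theorem ne_b {i j : Ix} (h : i ≤ j) (hi : i ≠ .b) : j ≠ .b := by
  rcases h with rfl | rfl
  · exact hi
  · intro h; cases h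

variable {e : Rt E} {G : Grp}

/-- A point of a chart. -/
structure PO (e : Rt E) (G : Grp) : Type 1 where
  i : Ix
  A : SmAlg
  x : A.R
  ξ : Fin 3 → A.R
  π : Matrix (Fin G.N) (Fin G.N) A.R
  pt : Pt e G i x ξ π

/-- A morphism. -/
@[ext]
structure PM (X Y : PO e G) : Type where
  le : X.i ≤ Y.i
  φ : X.A.Hm Y.A
  h : Matrix (Fin G.N) (Fin G.N) Y.A.R
  pt : G.Pt h
  hx : φ X.x = kx e X.i Y.i Y.x
  hY : h * G.ht (φ ∘ X.ξ) = kc e X.i Y.i Y.x • (G.ht Y.ξ * h)
  hπ : X.i ≠ .b → h * X.π.map φ = Y.π * h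

/-- The identity. -/
def PM.one (X : PO e G) : PM X X where
  le := le_rfl
  φ := AlgHom.id ℂ _
  h := 1
  pt := Grp.Pt.one G
  hx := (kx_self e _ _).symm
  hY := by rw [kc_self, one_smul, Matrix.one_mul, Matrix.mul_one]; rfl
  hπ _ := by rw [Matrix.one_mul, Matrix.mul_one]; rfl

/-- The composition. -/
def PM.comp {X Y Z : PO e G} (u : PM X Y) (v : PM Y Z) : PM X Z where
  le := u.le.trans v.le
  φ := v.φ.comp u.φ
  h := v.h * u.h.map v.φ
  pt := v.pt.mul (u.pt.map v.φ)
  hx := by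
    rw [← kx_comp e u.le v.le, ← v.hx, ← map_kx e v.φ _ _ Y.pt.un, ← u.hx]
    rfl
  hY := by
    have h1 := congrArg (fun m => m.map v.φ) u.hY
    simp only [map_mul', P286E.map_smul', Grp.ht_map] at h1
    have h2 : (v.φ.comp u.φ) ∘ X.ξ = v.φ ∘ u.φ ∘ X.ξ := rfl
    rw [h2, Matrix.mul_assoc, h1, Matrix.mul_smul, ← Matrix.mul_assoc, v.hY,
      map_kc e v.φ _ _ Y.pt.un, v.hx, Matrix.smul_mul, smul_smul, Matrix.mul_assoc,
      kc_comp e u.le v.le]
  hπ hi := by
    have h1 := congrArg (fun m => m.map v.φ) (u.hπ hi)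
    simp only [map_mul'] at h1
    have h2 : X.π.map (v.φ.comp u.φ) = (X.π.map u.φ).map v.φ := rfl
    rw [h2, Matrix.mul_assoc, h1, ← Matrix.mul_assoc, v.hπ (ne_b u.le hi), Matrix.mul_assoc]

/-- The category of the points of the charts. -/
def pcat (e : Rt E) (G : Grp) : Category.{0} (PO e G) where
  Hom := PM
  id := PM.one
  comp := PM.comp
  id_comp u := PM.ext rfl
    ((congrArg (u.h * ·) (Matrix.map_one _ (map_zero _) (map_one _))).trans (Matrix.mul_one _))
  comp_id u := PM.ext rfl (Matrix.one_mul _)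
  assoc u v w := PM.ext rfl (by
    change w.h * (v.h * u.h.map v.φ).map w.φ = w.h * v.h.map w.φ * u.h.map (w.φ.comp v.φ)
    rw [map_mul', Matrix.mul_assoc]
    rfl)

/-- The test category of the points of the charts. -/
def QP (e : Rt E) (G : Grp) (s : ℂ) : St.TSite where
  C := PO e G
  cat := pcat e G
  A := PO.A
  f := PM.φ
  dl {X Y} _ := kr e X.i Y.i Y.x
  cen _ := ∅
  s := s

theorem good_QP (e : Rt E) (G : Grp) (s : ℂ) : P286ER.Good (QP e G s) where
  f_id _ := rfl
  f_comp _ _ := rfl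
  unit {X Y} _ := kr_unit (A := (PO.A Y).R) e _ _ (PO.pt Y).un
  dl_comp {X Y Z} u v := by
    change kr e X.i Z.i Z.x = kr e Y.i Z.i Z.x * (PM.φ v) (kr e X.i Y.i Y.x)
    rw [map_kr, PM.hx v, kr_comp e (PM.le u) (PM.le v)]

/-- The charts for `SL_2`. -/
def QP2 : Prop := ∀ (E : Ell) (e : Rt E) (s : ℂ),
  EQV (WD.st (QP e SL2 s)) (WD.st (QS (D1 e) SL2 s))

/-- The charts for `SO_3`. -/
def QP3 : Prop := ∀ (E : Ell) (e : Rt E) (s : ℂ),
  EQV (WD.st (QP e SO3 s)) (WD.st (QS (D2 e) SO3 s))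

end

end Vale.Agent.P286EB
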