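import Vale.Agent.P286EB.Av
import Vale.Agent.P286EXK.Kv

/-!
# The retraction: the abstract computation
-/

set_option linter.all false

namespace Vale.Agent.P286EX

open TensorProduct Vale.Agent.P286 Vale.Agent.P286.H847 Vale.Agent.P286.H710 Vale.Agent.P286.H697

noncomputable section

variable {Z A B : Type} [CommRing Z] [Algebra ℂ Z] [CommRing A] [Algebra ℂ A] [CommRing B]
  [Algebra ℂ B]

theorem semi_span {Q : OmM A} {L : OmM B} (f : A →ₐ[ℂ] B) (φ ψ : Q.M.V →+ L.M.V)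
    (hφ : ∀ (w : Om ℂ A) x, φ (w • x) = Om.pb f w • φ x)
    (hψ : ∀ (w : Om ℂ A) x, ψ (w • x) = Om.pb f w • ψ x) {s : Set Q.M.V}
    (h : ∀ x ∈ s, φ x = ψ x) {x : Q.M.V} (hx : x ∈ Submodule.span (Om ℂ A) s) : φ x = ψ x := by
  induction hx using Submodule.span_induction with
  | mem x hx => exact h x hx
  | zero => rw [map_zero, map_zero]
  | add x y _ _ hx hy => rw [map_add, map_add, hx, hy]
  | smul w x _ hx => rw [hφ, hψ, hx]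

theorem semi_ext {S : Type} {Q : OmM A} {L : OmM B} (f : A →ₐ[ℂ] B)
    (b : Module.Basis S (Om ℂ A) Q.M.V) (φ ψ : Q.M.V →+ L.M.V)
    (hφ : ∀ (w : Om ℂ A) x, φ (w • x) = Om.pb f w • φ x)
    (hψ : ∀ (w : Om ℂ A) x, ψ (w • x) = Om.pb f w • ψ x) (h : ∀ s, φ (b s) = ψ (b s))
    (x : Q.M.V) : φ x = ψ x :=
  semi_span f φ ψ hφ hψ (by rintro _ ⟨s, rfl⟩; exact h s) (b.mem_span x)

theorem OmM.gr_asmul (L : OmM A) (a : A) {m : ℤ} {x : L.M.V} (hx : x ∈ L.M.gr m) :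
    a • x ∈ L.M.gr m := by
  have h := L.smul_gr 0 m _ x (Om.alg_mem a) hx
  rwa [OmM.asmul, Nat.cast_zero, add_zero] at h

/-- The data of the retraction. -/
structure RT (l : A →ₐ[ℂ] B) (r : Z →ₐ[ℂ] B) (θ : Fin 3 → Om ℂ B) {Q0 : OmM Z} {QX : OmM A}
    {QW : OmM B} (σ0 : Sg Q0) (σX : Sg QX) (σW : Sg QW) (ι : Type) where
  dg : ι → ℤ
  e0 : Module.Basis ι (Om ℂ Z) Q0.M.V
  e0_gr : ∀ β, e0 β ∈ Q0.M.gr (dg β)
  bX : Module.Basis (Finset (Fin 3) × ι) (Om ℂ A) QX.M.V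
  bW : Module.Basis (Finset (Fin 3) × ι) (Om ℂ B) QW.M.V
  bR : Module.Basis (Finset (Fin 3) × ι) (Om ℂ B) QW.M.V
  bX_gr : ∀ γ, bX γ ∈ QX.M.gr (dg γ.2 - γ.1.card)
  hX : ∀ (F : OmM A) (η : QX.M.V →ₗ[Om ℂ A] F.M.V) (n : ℤ),
    (∀ γ, η (bX γ) ∈ F.M.gr (dg γ.2 - γ.1.card + n)) → η ∈ hmg QX F n
  hW : ∀ (F : OmM B) (η : QW.M.V →ₗ[Om ℂ B] F.M.V) (n : ℤ),
    (∀ γ, η (bW γ) ∈ F.M.gr (dg γ.2 - γ.1.card + n)) → η ∈ hmg QW F n
  Pl : QX.M.V →ₗ[ℂ] QW.M.V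
  Pl_smul : ∀ (w : Om ℂ A) x, Pl (w • x) = Om.pb l w • Pl x
  Pl_d : ∀ x, QW.M.d (Pl x) = Pl (QX.M.d x)
  Pl_s : ∀ x, σW.s (Pl x) = Pl (σX.s x)
  Pl_b : ∀ γ, Pl (bX γ) = bW γ
  G0 : Q0.M.V →ₗ[ℂ] QW.M.V
  G0_smul : ∀ (w : Om ℂ Z) x, G0 (w • x) = Om.pb r w • G0 x
  G0_s : ∀ x, σW.s (G0 x) = G0 (σ0.s x)
  G0_e : ∀ β, G0 (e0 β) = bR (∅, β)
  G0_gr : ∀ m, ∀ x ∈ Q0.M.gr m, G0 x ∈ QW.M.gr m
  Λ : QW.M.V →ₗ[ℂ] QW.M.V
  Λ_smul : ∀ (w : Om ℂ B) y, Λ (w • y) = Om.sg w • Λ y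
  Λ_Pl : ∀ x, ∃ x' : Fin 3 → QX.M.V, Λ (Pl x) = ∑ a, θ a • Pl (x' a)
  G0_d : ∀ x, QW.M.d (G0 x) - Λ (G0 x) = G0 (Q0.M.d x)
  E : QW.M.V →ₗ[Om ℂ B] QW.M.V
  E_d : ∀ y, QW.M.d (E y) = E (QW.M.d y - Λ y)
  E_gr : ∀ m, ∀ y ∈ QW.M.gr m, E y ∈ QW.M.gr m
  E_s : ∀ y, σW.s (E y) = E (σW.s y)
  E_b : ∀ β, E (bW (∅, β)) = ∑ S, thS θ S • bW (S, β)
  spW : ∀ β, bW (∅, β) ∈ Submodule.span B {y | ∃ β', dg β' = dg β ∧ y = bR (∅, β')}
  spR : ∀ β, bR (∅, β) ∈ Submodule.span (Om ℂ B) (Set.range fun β => bW (∅, β))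

namespace RT

variable {l : A →ₐ[ℂ] B} {r : Z →ₐ[ℂ] B} {θ : Fin 3 → Om ℂ B} {Q0 : OmM Z} {QX : OmM A}
  {QW : OmM B} {σ0 : Sg Q0} {σX : Sg QX} {σW : Sg QW} {ι : Type} (R : RT l r θ σ0 σX σW ι)
  {F : OmM A} {L : OmM B} (V : AV l θ F L)

/-- The twisted differential. -/
def dd (ψ : QW.M.V →ₗ[Om ℂ B] L.M.V) : QW.M.V →ₗ[Om ℂ B] L.M.V where
  toFun y := L.M.d (ψ (σW.s y)) - ψ (QW.M.d (σW.s y) - R.Λ (σW.s y))
  map_add' x y := by simp only [map_add, map_sub]; abel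
  map_smul' w x := by
    simp only [σW.s_smul, map_smul, L.leib, QW.leib, map_add, map_sub, R.Λ_smul, H710.Om.sg_sg,
      RingHom.id_apply, smul_sub]
    abel

theorem dd_apply (ψ : QW.M.V →ₗ[Om ℂ B] L.M.V) (y : QW.M.V) :
    R.dd ψ y = L.M.d (ψ (σW.s y)) - ψ (QW.M.d (σW.s y) - R.Λ (σW.s y)) := rfl

/-- The restriction. -/
def res (ψ : QW.M.V →ₗ[Om ℂ B] L.M.V) : Q0.M.V →ₗ[Om ℂ Z] (OmM.res r L).M.V where
  toFun q := OmM.rs r (ψ (R.G0 q))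
  map_add' x y := (congrArg ψ (map_add R.G0 x y)).trans (map_add ψ _ _)
  map_smul' w x := (congrArg ψ (R.G0_smul w x)).trans (map_smul ψ _ _)

theorem res_apply (ψ : QW.M.V →ₗ[Om ℂ B] L.M.V) (q : Q0.M.V) :
    OmM.un (R.res ψ q) = ψ (R.G0 q) := rfl

theorem res_dd (ψ : QW.M.V →ₗ[Om ℂ B] L.M.V) :
    R.res (R.dd ψ) = hmd σ0 (OmM.res r L) (R.res ψ) := LinearMap.ext fun q => by
  change R.dd ψ (R.G0 q) = L.M.d (ψ (R.G0 (σ0.s q))) - ψ (R.G0 (Q0.M.d (σ0.s q)))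
  rw [dd_apply, R.G0_s, R.G0_d]

theorem G0_mem (q : Q0.M.V) :
    R.G0 q ∈ Submodule.span (Om ℂ B) (Set.range fun β => R.bW (∅, β)) := by
  have h := R.e0.mem_span q
  induction h using Submodule.span_induction with
  | mem x hx => obtain ⟨β, rfl⟩ := hx; rw [R.G0_e]; exact R.spR β
  | zero => rw [map_zero]; exact zero_mem _
  | add x y _ _ hx hy => rw [map_add]; exact add_mem hx hy
  | smul w x _ hx => rw [R.G0_smul]; exact Submodule.smul_mem _ _ hx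

theorem res_congr {ψ ψ' : QW.M.V →ₗ[Om ℂ B] L.M.V} (h : ∀ β, ψ (R.bW (∅, β)) = ψ' (R.bW (∅, β))) :
    R.res ψ = R.res ψ' := LinearMap.ext fun q =>
  LinearMap.eqOn_span (f := ψ) (g := ψ') (by rintro _ ⟨β, rfl⟩; exact h β) (R.G0_mem q)

theorem bW_ind {Q : QW.M.V → Prop} (β : ι) (gen : ∀ β', R.dg β' = R.dg β → Q (R.G0 (R.e0 β')))
    (zero : Q 0) (add : ∀ x y, Q x → Q y → Q (x + y)) (smul : ∀ (a : B) x, Q x → Q (a • x)) :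
    Q (R.bW (∅, β)) := by
  have h := R.spW β
  generalize R.bW (∅, β) = y at h
  induction h using Submodule.span_induction with
  | mem x hx => obtain ⟨β', h, rfl⟩ := hx; rw [← R.G0_e]; exact gen β' h
  | zero => exact zero
  | add x y _ _ hx hy => exact add x y hx hy
  | smul w x _ hx => exact smul w x hx

theorem of_res {ψ ψ' : QW.M.V →ₗ[Om ℂ B] L.M.V} (h : R.res ψ = R.res ψ') (β : ι) :
    ψ (R.bW (∅, β)) = ψ' (R.bW (∅, β)) :=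
  R.bW_ind (Q := fun y => ψ y = ψ' y) β (fun _ _ => LinearMap.congr_fun h _)
    (by rw [map_zero, map_zero]) (fun x y hx hy => by rw [map_add, map_add, hx, hy])
    fun a x hx => by rw [map_asmul, map_asmul, hx]

open Classical in
/-- The extension of a map on the part without ghosts. -/
def hat (ξ : Q0.M.V →ₗ[Om ℂ Z] (OmM.res r L).M.V) : QW.M.V →ₗ[Om ℂ B] L.M.V :=
  R.bR.constr ℕ fun γ => if γ.1 = ∅ then OmM.un (ξ (R.e0 γ.2)) else 0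

theorem res_hat (ξ : Q0.M.V →ₗ[Om ℂ Z] (OmM.res r L).M.V) : R.res (R.hat ξ) = ξ :=
  R.e0.ext fun β => (congrArg (R.hat ξ) (R.G0_e β)).trans
    ((R.bR.constr_basis ℕ _ _).trans (if_pos rfl))

theorem hat_G0 (ξ : Q0.M.V →ₗ[Om ℂ Z] (OmM.res r L).M.V) (q : Q0.M.V) :
    R.hat ξ (R.G0 q) = OmM.un (ξ q) := LinearMap.congr_fun (R.res_hat ξ) q

theorem hat_res (ψ : QW.M.V →ₗ[Om ℂ B] L.M.V) (β : ι) :
    R.hat (R.res ψ) (R.bW (∅, β)) = ψ (R.bW (∅, β)) := R.of_res (R.res_hat _) β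

/-- The extension of a map. -/
def ext (η : QX.M.V →ₗ[Om ℂ A] F.M.V) : QW.M.V →ₗ[Om ℂ B] L.M.V :=
  R.bW.constr ℕ fun γ => V.jk.f (η (R.bX γ))

theorem ext_b (η : QX.M.V →ₗ[Om ℂ A] F.M.V) (γ : Finset (Fin 3) × ι) :
    R.ext V η (R.bW γ) = V.jk.f (η (R.bX γ)) := R.bW.constr_basis ℕ _ _

theorem ext_Pl (η : QX.M.V →ₗ[Om ℂ A] F.M.V) (x : QX.M.V) :
    R.ext V η (R.Pl x) = V.jk.f (η x) :=
  semi_ext l R.bX ((R.ext V η).toAddMonoidHom.comp R.Pl.toAddMonoidHom)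
    (V.jk.f.toAddMonoidHom.comp η.toAddMonoidHom)
    (fun w x => (congrArg (R.ext V η) (R.Pl_smul w x)).trans (map_smul _ _ _))
    (fun w x => (congrArg V.jk.f (map_smul η w x)).trans (V.jk_smul _ _))
    (fun γ => (congrArg (R.ext V η) (R.Pl_b γ)).trans (R.ext_b V η γ)) x

theorem ext_d (η : QX.M.V →ₗ[Om ℂ A] F.M.V) :
    R.ext V (hmd σX F η) = hmd σW L (R.ext V η) := R.bW.ext fun γ => by
  rw [ext_b, hmd_apply, hmd_apply, ← R.Pl_b, R.Pl_s, R.Pl_d, ext_Pl, ext_Pl, map_sub, V.jk.comm]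

/-- The average of a map. -/
def Av (ψ : QW.M.V →ₗ[Om ℂ B] L.M.V) : QW.M.V →ₗ[Om ℂ B] L.M.V :=
  R.bW.constr ℕ fun γ => V.av (ψ (R.bW γ))

theorem Av_b (ψ : QW.M.V →ₗ[Om ℂ B] L.M.V) (γ : Finset (Fin 3) × ι) :
    R.Av V ψ (R.bW γ) = V.av (ψ (R.bW γ)) := R.bW.constr_basis ℕ _ _

theorem Av_Pl (ψ : QW.M.V →ₗ[Om ℂ B] L.M.V) (x : QX.M.V) :
    R.Av V ψ (R.Pl x) = V.av (ψ (R.Pl x)) :=
  semi_ext l R.bX ((R.Av V ψ).toAddMonoidHom.comp R.Pl.toAddMonoidHom)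
    (V.av.comp (ψ.toAddMonoidHom.comp R.Pl.toAddMonoidHom))
    (fun w x => (congrArg (R.Av V ψ) (R.Pl_smul w x)).trans (map_smul _ _ _))
    (fun w x => (congrArg V.av ((congrArg ψ (R.Pl_smul w x)).trans (map_smul ψ _ _))).trans
      (V.av_pb _ _))
    (fun γ => (congrArg (R.Av V ψ) (R.Pl_b γ)).trans ((R.Av_b V ψ γ).trans
      (congrArg (fun y => V.av (ψ y)) (R.Pl_b γ).symm))) x

theorem Av_dd (ψ : QW.M.V →ₗ[Om ℂ B] L.M.V) : R.Av V (R.dd ψ) = R.dd (R.Av V ψ) :=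
  R.bW.ext fun γ => by
    obtain ⟨x', h⟩ := R.Λ_Pl (σX.s (R.bX γ))
    have h1 : ∀ y, V.av (L.M.d y) = L.M.d (V.av y) := V.av_d
    have h2 : ∀ a y, V.av (θ a • y) = θ a • V.av y := V.av_θ
    rw [Av_b, dd_apply, dd_apply, ← R.Pl_b, R.Pl_s, R.Pl_d, h]
    simp only [map_sub, map_sum, map_smul, Av_Pl, h1, h2]

theorem ext_E_b (η : QX.M.V →ₗ[Om ℂ A] F.M.V) (β : ι) :
    R.ext V η (R.E (R.bW (∅, β))) = ∑ S, thS θ S • V.jk.f (η (R.bX (S, β))) := by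
  simp only [R.E_b, map_sum, map_smul, ext_b]

/-- The map `ι`. -/
def io : GD.Hom (Hm σX F) (Hm σ0 (OmM.res r L)) where
  f :=
    { toFun := fun η => R.res (R.ext V η ∘ₗ R.E)
      map_add' := fun η η' => (R.res_congr (ψ' := R.ext V η ∘ₗ R.E + R.ext V η' ∘ₗ R.E) fun β => by
        simp only [LinearMap.add_apply, LinearMap.comp_apply, ext_E_b, map_add, smul_add,
          Finset.sum_add_distrib]).trans rfl
      map_smul' := fun c η => (R.res_congr (ψ' := c • (R.ext V η ∘ₗ R.E)) fun β => by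
        simp only [LinearMap.smul_apply, LinearMap.comp_apply, ext_E_b, map_smul, Finset.smul_sum,
          smul_comm c]).trans rfl }
  comm η := (congrArg R.res (LinearMap.ext fun y => by
    change R.ext V (hmd σX F η) (R.E y) = _
    rw [ext_d, hmd_apply, dd_apply, R.E_s, R.E_d]
    rfl)).trans (R.res_dd _)
  deg n η h m x hx := R.hW L (R.ext V η) n (fun γ => by
    rw [ext_b]
    exact V.jk.deg _ _ (h _ _ (R.bX_gr γ))) m _ (R.E_gr _ _ (R.G0_gr _ _ hx))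

theorem io_apply (η : QX.M.V →ₗ[Om ℂ A] F.M.V) (q : Q0.M.V) :
    OmM.un ((R.io V).f η q) = R.ext V η (R.E (R.G0 q)) := rfl

/-- The linear map `r`. -/
def rL (ξ : Q0.M.V →ₗ[Om ℂ Z] (OmM.res r L).M.V) : QX.M.V →ₗ[Om ℂ A] F.M.V :=
  R.bX.constr ℕ fun γ => V.c γ.1 (R.hat ξ (R.bW (∅, γ.2)))

theorem rL_b (ξ : Q0.M.V →ₗ[Om ℂ Z] (OmM.res r L).M.V) (S : Finset (Fin 3)) (β : ι) :
    R.rL V ξ (R.bX (S, β)) = V.c S (R.hat ξ (R.bW (∅, β))) := R.bX.constr_basis ℕ _ _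

theorem rL_io (η : QX.M.V →ₗ[Om ℂ A] F.M.V) : R.rL V ((R.io V).f η) = η :=
  R.bX.ext fun ⟨S, β⟩ => by
    have h : R.hat ((R.io V).f η) (R.bW (∅, β)) = _ := (R.hat_res _ β).trans (R.ext_E_b V η β)
    rw [rL_b, h, map_sum]
    simp only [V.c_th, Finset.sum_ite_eq, Finset.mem_univ, if_true]

theorem io_inj : Function.Injective (R.io V).f := fun η η' h =>
  (R.rL_io V η).symm.trans ((congrArg (R.rL V) h).trans (R.rL_io V η'))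

theorem io_rL (ξ : Q0.M.V →ₗ[Om ℂ Z] (OmM.res r L).M.V) :
    (R.io V).f (R.rL V ξ) = R.res (R.Av V (R.hat ξ)) := R.res_congr fun β => by
  rw [LinearMap.comp_apply, ext_E_b, Av_b, V.av_apply]
  simp only [rL_b]

theorem hat_add (ξ ξ' : Q0.M.V →ₗ[Om ℂ Z] (OmM.res r L).M.V) (β : ι) :
    R.hat (ξ + ξ') (R.bW (∅, β)) = R.hat ξ (R.bW (∅, β)) + R.hat ξ' (R.bW (∅, β)) :=
  R.of_res (ψ' := R.hat ξ + R.hat ξ') ((R.res_hat _).trans (LinearMap.ext fun q =>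
    (congrArg₂ (· + ·) (R.hat_G0 ξ q) (R.hat_G0 ξ' q)).symm)) β

theorem hat_smul (c : ℂ) (ξ : Q0.M.V →ₗ[Om ℂ Z] (OmM.res r L).M.V) (β : ι) :
    R.hat (c • ξ) (R.bW (∅, β)) = c • R.hat ξ (R.bW (∅, β)) :=
  R.of_res (ψ' := c • R.hat ξ) ((R.res_hat _).trans (LinearMap.ext fun q =>
    (congrArg (c • ·) (R.hat_G0 ξ q)).symm)) β

/-- The retraction `r`. -/
def rt : GD.Hom (Hm σ0 (OmM.res r L)) (Hm σX F) where
  f :=
    { toFun := R.rL V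
      map_add' := fun ξ ξ' => R.bX.ext fun ⟨S, β⟩ => by
        rw [LinearMap.add_apply, rL_b, rL_b, rL_b, hat_add, map_add]
      map_smul' := fun c ξ => R.bX.ext fun ⟨S, β⟩ => by
        rw [LinearMap.smul_apply, rL_b, rL_b, hat_smul, map_smul, RingHom.id_apply] }
  comm ξ := R.io_inj V (by
    have h1 : R.res (R.hat (hmd σ0 _ ξ)) = R.res (R.dd (R.hat ξ)) := by
      rw [res_hat, res_dd, res_hat]
    refine (R.io_rL V _).trans (Eq.trans ?_ ((R.io V).comm _).symm)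
    refine (R.res_congr (ψ' := R.Av V (R.dd (R.hat ξ))) fun β => ?_).trans ?_
    · rw [Av_b, Av_b, R.of_res h1]
    · rw [Av_dd, res_dd]
      exact congrArg _ (R.io_rL V ξ).symm)
  deg n ξ h := R.hX F _ n fun ⟨S, β⟩ => by
    have h1 : R.hat ξ (R.bW (∅, β)) ∈ L.M.gr (R.dg β + n) :=
      R.bW_ind (Q := fun y => R.hat ξ y ∈ L.M.gr (R.dg β + n)) β
        (fun β' e => by rw [hat_G0, ← e]; exact h _ _ (R.e0_gr β'))
        (by rw [map_zero]; exact zero_mem _) (fun x y hx hy => by rw [map_add]; exact add_mem hx hy)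
        fun a x hx => by rw [map_asmul]; exact OmM.gr_asmul L a hx
    have h2 := V.c_gr S _ _ h1
    rw [show R.dg β + n - S.card = R.dg β - S.card + n by omega] at h2
    exact (R.rL_b V ξ S β).symm ▸ h2

theorem rt_f (ξ : Q0.M.V →ₗ[Om ℂ Z] (OmM.res r L).M.V) : (R.rt V).f ξ = R.rL V ξ := rfl

theorem rt_io (η : QX.M.V →ₗ[Om ℂ A] F.M.V) : (R.rt V).f ((R.io V).f η) = η := R.rL_io V η

end RT

section Nat

variable {A' B' : Type} [CommRing A'] [Algebra ℂ A'] [CommRing B'] [Algebra ℂ B']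
  {l : A →ₐ[ℂ] B} {r : Z →ₐ[ℂ] B} {θ : Fin 3 → Om ℂ B} {Q0 : OmM Z} {QX : OmM A}
  {QW : OmM B} {σ0 : Sg Q0} {σX : Sg QX} {σW : Sg QW} {ι : Type} {F : OmM A} {L : OmM B}
  {l' : A' →ₐ[ℂ] B'} {r' : Z →ₐ[ℂ] B'} {θ' : Fin 3 → Om ℂ B'} {QX' : OmM A'}
  {QW' : OmM B'} {σX' : Sg QX'} {σW' : Sg QW'} {F' : OmM A'} {L' : OmM B'}

/-- The comparison of two data. -/
structure RN (R : RT l r θ σ0 σX σW ι) (V : AV l θ F L) (R' : RT l' r' θ' σ0 σX' σW' ι)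
    (V' : AV l' θ' F' L') where
  f : B →ₐ[ℂ] B'
  tX : QX.M.V → QX'.M.V
  pX : QX.M.V → QX'.M.V
  tW : QW.M.V →+ QW'.M.V
  pW : QW.M.V →+ QW'.M.V
  tF : F.M.V → F'.M.V
  k : L.M.V →+ L'.M.V
  tW_smul : ∀ (w : Om ℂ B) y, tW (w • y) = Om.pb f w • tW y
  pW_smul : ∀ (w : Om ℂ B) y, pW (w • y) = Om.pb f w • pW y
  k_smul : ∀ (w : Om ℂ B) y, k (w • y) = Om.pb f w • k y
  tW_Pl : ∀ x, tW (R.Pl x) = R'.Pl (tX x)
  pW_Pl : ∀ x, pW (R.Pl x) = R'.Pl (pX x)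
  tW_G0 : ∀ q, tW (R.E (R.G0 q)) = R'.E (R'.G0 q)
  pW_G0 : ∀ q, pW (R.G0 q) = R'.G0 q
  k_jk : ∀ y, k (V.jk.f y) = V'.jk.f (tF y)
  k_av : ∀ y, V'.av (k y) = k (V.av y)

namespace RN

variable {R : RT l r θ σ0 σX σW ι} {V : AV l θ F L} {R' : RT l' r' θ' σ0 σX' σW' ι}
  {V' : AV l' θ' F' L'} (N : RN R V R' V')

theorem ext_nat {η : QX.M.V →ₗ[Om ℂ A] F.M.V} {η' : QX'.M.V →ₗ[Om ℂ A'] F'.M.V}
    (h : ∀ x, η' (N.tX x) = N.tF (η x)) (y : QW.M.V) :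
    R'.ext V' η' (N.tW y) = N.k (R.ext V η y) :=
  semi_ext N.f R.bW ((R'.ext V' η').toAddMonoidHom.comp N.tW) (N.k.comp (R.ext V η).toAddMonoidHom)
    (fun w x => (congrArg (R'.ext V' η') (N.tW_smul w x)).trans (map_smul _ _ _))
    (fun w x => (congrArg N.k (map_smul (R.ext V η) w x)).trans (N.k_smul _ _))
    (fun γ => by
      change R'.ext V' η' (N.tW (R.bW γ)) = N.k (R.ext V η (R.bW γ))
      rw [← R.Pl_b, N.tW_Pl, RT.ext_Pl, RT.ext_Pl, h, N.k_jk]) y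

theorem io_nat {η : QX.M.V →ₗ[Om ℂ A] F.M.V} {η' : QX'.M.V →ₗ[Om ℂ A'] F'.M.V}
    (h : ∀ x, η' (N.tX x) = N.tF (η x)) (q : Q0.M.V) :
    OmM.un ((R'.io V').f η' q) = N.k (OmM.un ((R.io V).f η q)) := by
  rw [RT.io_apply, RT.io_apply, ← N.tW_G0, N.ext_nat h]

theorem rt_nat {ξ : Q0.M.V →ₗ[Om ℂ Z] (OmM.res r L).M.V}
    {ξ' : Q0.M.V →ₗ[Om ℂ Z] (OmM.res r' L').M.V} (h : ∀ q, OmM.un (ξ' q) = N.k (OmM.un (ξ q)))
    {η' : QX'.M.V →ₗ[Om ℂ A'] F'.M.V} (h' : ∀ x, η' (N.tX x) = N.tF ((R.rt V).f ξ x)) :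
    (R'.rt V').f ξ' = η' := R'.io_inj V' (LinearMap.ext fun q => by
  have h1 : ∀ β, R'.hat ξ' (N.pW (R.bW (∅, β))) = N.k (R.hat ξ (R.bW (∅, β))) := fun β =>
    R.bW_ind (Q := fun y => R'.hat ξ' (N.pW y) = N.k (R.hat ξ y)) β
      (fun β' _ => by rw [N.pW_G0, RT.hat_G0, RT.hat_G0, h]) (by simp only [map_zero])
      (fun x y hx hy => by simp only [map_add, hx, hy])
      fun a x hx => by
        rw [← OmM.asmul QW, N.pW_smul, map_smul, map_smul, N.k_smul, hx]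
  have h2 : R'.Av V' (R'.hat ξ') (N.pW (R.G0 q)) = N.k (R.Av V (R.hat ξ) (R.G0 q)) :=
    semi_span N.f ((R'.Av V' (R'.hat ξ')).toAddMonoidHom.comp N.pW)
      (N.k.comp (R.Av V (R.hat ξ)).toAddMonoidHom)
      (fun w x => (congrArg (R'.Av V' (R'.hat ξ')) (N.pW_smul w x)).trans (map_smul _ _ _))
      (fun w x => (congrArg N.k (map_smul (R.Av V (R.hat ξ)) w x)).trans (N.k_smul _ _))
      (by
        rintro _ ⟨β, rfl⟩
        change R'.Av V' (R'.hat ξ') (N.pW (R.bW (∅, β))) = N.k (R.Av V (R.hat ξ) (R.bW (∅, β)))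
        rw [RT.Av_b, ← N.k_av, ← h1, ← R.Pl_b, N.pW_Pl, RT.Av_Pl]) (R.G0_mem q)
  have h3 := LinearMap.congr_fun (R'.io_rL V' ξ') q
  have h4 := LinearMap.congr_fun (R.io_rL V ξ) q
  rw [N.pW_G0] at h2
  exact h3.trans (h2.trans ((congrArg N.k h4.symm).trans (N.io_nat h' q).symm)))

end RN

end Nat

end

end Vale.Agent.P286EX
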