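import Vale.Agent.P286EB.Ret
import Vale.Agent.P286EX7.P0
import Vale.Agent.P286EX9.Cos
import Vale.Agent.P286EXK.Mk

/-!
# The retraction for the generator
-/

set_option linter.all false

namespace Vale.Agent.P286EX

open CategoryTheory TensorProduct Vale.Agent.P286 Vale.Agent.P286.St Vale.Agent.P286.H847
  Vale.Agent.P286.H710 Vale.Agent.P286.H697 Vale.Agent.P286E Vale.Agent.P286EX.Gau
open Vale.Agent.P286.H697.DGM (lT)

noncomputable section

namespace Ret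

theorem thS_insert {R : Type} [Monoid R] (θ : Fin 3 → R) {a : Fin 3} {S : Finset (Fin 3)}
    (h : ∀ b ∈ S, a < b) : thS θ (insert a S) = thS θ S * θ a := by
  have h0 : (0 : Fin 3) ∉ S := fun h0 => absurd (h 0 h0) (Fin.not_lt_zero a)
  fin_cases a
  · simp [thS, h0]
  · have h1 : (1 : Fin 3) ∉ S := fun h1 => absurd (h 1 h1) (by decide)
    simp [thS, h0, h1]
  · have h1 : (1 : Fin 3) ∉ S := fun h1 => absurd (h 1 h1) (by decide)
    have h2 : (2 : Fin 3) ∉ S := fun h1 => absurd (h 2 h1) (by decide)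
    simp [thS, h0, h1, h2]

variable {A : Type} [CommRing A] [Algebra ℂ A] {V : Type} [AddCommGroup V] [Module A V]
  {i : Fin 3 → V →ₗ[A] V} {θ : Fin 3 → Om ℂ A}

theorem single_mem {w : Om ℂ A} (hw : w ∈ Om.gr ℂ A 1) (a b : Fin 3) :
    (Pi.single a w : Fin 3 → Om ℂ A) b ∈ Om.gr ℂ A 1 := by
  rw [Pi.single_apply]
  split_ifs
  · exact hw
  · exact zero_mem _

theorem eE_single {w : Om ℂ A} (hw : w ∈ Om.gr ℂ A 1) (a : Fin 3) (y : DR ℂ A V) :
    eE i (Pi.single a w) y = y + w • sgT (i a) y := by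
  have h : ∀ y, nE i (Pi.single a w) y = w • sgT (i a) y := fun y => by
    rw [nE_apply, Finset.sum_eq_single a (fun b _ hb => by rw [Pi.single_eq_of_ne hb, zero_smul])
      (fun h => absurd (Finset.mem_univ a) h), Pi.single_eq_same]
  have h2 : ∀ y, nE i (Pi.single a w) (nE i (Pi.single a w) y) = 0 := fun y => by
    obtain ⟨m, rfl⟩ := one_eq hw
    rw [h y, nE_smul (single_mem hw a), h, smul_smul, ExteriorAlgebra.ι_sq_zero, zero_smul]
  rw [eE, ex_sub, map_add, map_add, map_smul, map_smul, h2, map_zero, smul_zero, smul_zero, add_zero,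
    add_zero, h]

theorem eE_e (hi : ∀ a b x, i a (i b x) = -i b (i a x)) (hθ : ∀ a, θ a ∈ Om.gr ℂ A 1)
    (x : Finset (Fin 3) → V)
    (hx : ∀ a S, a ∉ S → i a (x S) = (-1 : A) ^ (S.filter (· < a)).card • x (insert a S)) :
    eE i θ (1 ⊗ₜ[A] x ∅) = ∑ S, thS θ S • ((1 : Om ℂ A) ⊗ₜ[A] x S) := by
  have st : ∀ (a : Fin 3) (s : Finset (Fin 3)), (∀ b ∈ s, a < b) →
      eE i (Pi.single a (θ a)) (∑ S ∈ s.powerset, thS θ S • ((1 : Om ℂ A) ⊗ₜ[A] x S)) =
        ∑ S ∈ (insert a s).powerset, thS θ S • ((1 : Om ℂ A) ⊗ₜ[A] x S) := fun a s h => by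
    rw [eE_single (hθ a), Finset.sum_powerset_insert fun ha => lt_irrefl a (h a ha), map_sum,
      Finset.smul_sum]
    refine congrArg _ (Finset.sum_congr rfl fun S hS => ?_)
    have h1 : ∀ b ∈ S, a < b := fun b hb => h b (Finset.mem_powerset.1 hS hb)
    have h2 : S.filter (· < a) = ∅ := Finset.filter_eq_empty_iff.2 fun b hb => (h1 b hb).not_gt
    rw [sgT_smul, sgT_tmul, map_one, hx a S fun ha => lt_irrefl a (h1 a ha), h2, Finset.card_empty,
      pow_zero, one_smul, smul_smul, one_mul_sg (hθ a), H710.Om.sg_sg, thS_insert θ h1]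
  have e : θ = (Pi.single 0 (θ 0) : Fin 3 → Om ℂ A) +
      ((Pi.single 1 (θ 1) : Fin 3 → Om ℂ A) + (Pi.single 2 (θ 2) : Fin 3 → Om ℂ A)) := by
    funext a
    fin_cases a <;> simp
  have e0 : (1 : Om ℂ A) ⊗ₜ[A] x ∅ =
      ∑ S ∈ (∅ : Finset (Fin 3)).powerset, thS θ S • ((1 : Om ℂ A) ⊗ₜ[A] x S) := by
    rw [Finset.powerset_empty, Finset.sum_singleton, thS_empty, one_smul]
  have e1 : (insert 0 (insert 1 (insert 2 ∅)) : Finset (Fin 3)).powerset = Finset.univ := by decide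
  have e2 : ∀ a, ((Pi.single 1 (θ 1) : Fin 3 → Om ℂ A) + (Pi.single 2 (θ 2) : Fin 3 → Om ℂ A)) a ∈
      Om.gr ℂ A 1 := fun a => add_mem (single_mem (hθ 1) 1 a) (single_mem (hθ 2) 2 a)
  conv_lhs => rw [e]
  rw [eE_add hi (single_mem (hθ 0) 0) e2, eE_add hi (single_mem (hθ 1) 1) (single_mem (hθ 2) 2), e0,
    st 2 _ (by decide), st 1 _ (by decide), st 0 _ (by decide), e1]

theorem one_span {s : Set V} {t : Set (DR ℂ A V)} (h : ∀ x ∈ s, (1 : Om ℂ A) ⊗ₜ[A] x ∈ t) {x : V}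
    (hx : x ∈ Submodule.span A s) : (1 : Om ℂ A) ⊗ₜ[A] x ∈ Submodule.span A t := by
  induction hx using Submodule.span_induction with
  | mem x hx => exact Submodule.subset_span (h x hx)
  | zero => rw [tmul_zero]; exact zero_mem _
  | add x y _ _ hx hy => rw [tmul_add]; exact add_mem hx hy
  | smul c x _ hx => rw [tmul_smul]; exact Submodule.smul_mem _ _ hx

theorem one_span' {s : Set V} {t : Set (DR ℂ A V)} (h : ∀ x ∈ s, (1 : Om ℂ A) ⊗ₜ[A] x ∈ t) {x : V}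
    (hx : x ∈ Submodule.span A s) : (1 : Om ℂ A) ⊗ₜ[A] x ∈ Submodule.span (Om ℂ A) t :=
  Submodule.span_le_restrictScalars A (Om ℂ A) t (one_span h hx)

variable {T : TSite} {S : GS T} (H : HG S) {X Y W : T.C}

theorem eta0 {φ : X ⟶ Y} (h : T.dl φ = 1) : eta T φ = 0 := by
  rw [eta, h, Om.dd, Derivation.map_one_eq_zero, map_zero, smul_zero]

/-- The operator `∑ θ^a L_a`. -/
def lam (φ : X ⟶ Y) : H.V Y →ₗ[ℂ] H.V Y := lamE (fun a => lieOp (H.K Y) (H.i Y a)) (S.θ φ)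

theorem lam_smul (φ : X ⟶ Y) (w : Om ℂ (T.R Y)) (y : H.V Y) :
    lam H φ (w • y) = Om.sg w • lam H φ y := by
  rw [lam, lamE_apply, lamE_apply, Finset.smul_sum]
  refine Finset.sum_congr rfl fun a _ => ?_
  rw [DGM.lT_smul, smul_smul, smul_smul, one_mul_sg (S.θ_mem φ a)]

theorem lam_P (φ : Y ⟶ W) (l : X ⟶ W) (h : S.ad l = 1) (x : H.V X) :
    lam H φ (H.P l x) = ∑ a, S.θ φ a • H.P l (lT (lieOp (H.K X) (H.i X a)) x) := by
  rw [lam, lamE_apply]
  refine Finset.sum_congr rfl fun a _ => congrArg _ ?_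
  have h1 : ∀ p, (H.t l).f (H.i X a p) = H.i W a ((H.t l).f p) := fun p => by
    rw [H.t_i, h, Finset.sum_eq_single a (fun b _ hb => by rw [Matrix.one_apply_ne hb, zero_smul])
      (fun h => absurd (Finset.mem_univ a) h), Matrix.one_apply_eq, one_smul]
  induction x using DR.induction with
  | zero => simp
  | tmul w p =>
    rw [H.P_tmul, LinearMap.lTensor_tmul, LinearMap.lTensor_tmul, H.P_tmul, lieOp_apply,
      lieOp_apply, map_add, (H.t l).comm, h1, h1, (H.t l).comm]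
  | add x y hx hy => simp only [map_add, hx, hy]

/-- The operator `E` as a linear map. -/
def EL (φ : X ⟶ Y) : H.V Y →ₗ[Om ℂ (T.R Y)] H.V Y where
  toFun := H.E φ
  map_add' := map_add _
  map_smul' := H.E_smul φ

end Ret

open Ret

variable {I : Type} [SmallCategory I] {D : CD I} {G : Grp} {s : ℂ} {K : GK G} {xd : XD D}
  {U : Rep K}

namespace PD

variable (P : PD K xd s U)

theorem rt_sg {X Y : QO D} (u : Ar G s X Y) (p : (P.P.K X).M.V) :
    (P.P.t u).f (P.sg X p) = P.sg Y ((P.P.t u).f p) := by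
  induction p using int_ind _ (P.int X) with
  | zero => simp
  | hom m x hx => rw [P.sg_gr X m x hx, P.sg_gr Y m _ ((P.P.t u).deg m x hx), map_zsmul]
  | add x y hx hy => simp only [map_add, hx, hy]

theorem ri_sg (X : QO D) (a : Fin 3) (p : (P.P.K X).M.V) :
    P.sg X (P.P.i X a p) = ((1 : ℤ).negOnePow : ℤ) • P.P.i X a (P.sg X p) := by
  induction p using int_ind _ (P.int X) with
  | zero => simp
  | hom m x hx =>
    rw [P.sg_gr X m x hx, P.sg_gr X _ _ (P.P.i_gr X a m x hx), map_zsmul, smul_smul, ← np_add,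
      Int.negOnePow_sub, Int.negOnePow_add, mul_comm]
  | add x y hx hy => simp only [map_add, hx, hy, smul_add]

theorem σ_P {X Y : QO D} (u : Ar G s X Y) (x : (P.Q X).M.V) :
    (P.σ Y).s (P.P.P u x) = P.P.P u ((P.σ X).s x) :=
  (pbT_sgT _ _ (P.P.t_smul u) _ (P.P.t_smul u) (P.sg X) (P.sg Y) (P.rt_sg u) x).symm

theorem σ_E {X Y : QO D} (u : Ar G s X Y) (y : (P.Q Y).M.V) :
    (P.σ Y).s (P.P.E u y) = P.P.E u ((P.σ Y).s y) := by
  have e : szT 1 (P.sg Y) = sgT (P.sg Y) := by rw [szT, sgT, Om.sgz, if_neg (by decide)]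
  have h := szT_eE ((K.gs D s).θ_mem u) 1 (P.sg Y) _ (P.ri_sg Y) y
  rw [e] at h
  exact h

theorem gt_one {X Y : QO D} {l : Ar G s X Y} (h : qh l = 1) (x : (P.Q X).M.V) :
    P.P.gt l x = P.P.P l x :=
  P.P.E_of_th l (fun a => (congrArg (fun g => thm G g a) h).trans (thm_one a)) _

/-- The basis of the de Rham complex. -/
def bQx (X : QO D) : Module.Basis (Finset (Fin 3) × BI U.n) (Om ℂ (RQ G s X)) (P.Q X).M.V :=
  (P.fr X).e

theorem bQx_eq (X : QO D) (γ : Finset (Fin 3) × BI U.n) :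
    P.bQx X γ = (1 : Om ℂ (RQ G s X)) ⊗ₜ[RQ G s X] P.e X γ := P.fr_e X γ

/-- The basis which comes from an arrow. -/
def bT' {X Y : QO D} (u : Ar G s X Y) :
    Module.Basis (Finset (Fin 3) × BI U.n) (Om ℂ (RQ G s Y)) (P.Q Y).M.V :=
  (P.bc u).choose.baseChange (Om ℂ (RQ G s Y))

theorem bT'_eq {X Y : QO D} (u : Ar G s X Y) (γ : Finset (Fin 3) × BI U.n) :
    P.bT' u γ = (1 : Om ℂ (RQ G s Y)) ⊗ₜ[RQ G s Y] (P.P.t u).f (P.e X γ) :=
  (Module.Basis.baseChange_apply _ _ _).trans (congrArg _ ((P.bc u).choose_spec γ))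

theorem dg_eq (γ : Finset (Fin 3) × BI U.n) : dg (∅, γ.2) - γ.1.card = dg γ := by
  simp only [dg, Finset.card_empty]
  omega

theorem P_one {X Y : QO D} (u : Ar G s X Y) (p : (P.P.K X).M.V) :
    P.P.P u ((1 : Om ℂ (RQ G s X)) ⊗ₜ[RQ G s X] p) =
      (1 : Om ℂ (RQ G s Y)) ⊗ₜ[RQ G s Y] (P.P.t u).f p :=
  (P.P.P_tmul u 1 p).trans (by rw [map_one])

/-- The map from the part without ghosts. -/
def g0 {Z Y : QO D} (u : Ar G s Z Y) : (P.Q0 Z).M.V →ₗ[ℂ] (P.Q Y).M.V :=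
  P.P.P u ∘ₗ (P.incQ Z).restrictScalars ℂ

theorem g0_apply {Z Y : QO D} (u : Ar G s Z Y) (q : (P.Q0 Z).M.V) :
    P.g0 u q = P.P.P u (P.incQ Z q) := rfl

theorem g0_one {Z Y : QO D} (u : Ar G s Z Y) (β : BI U.n) :
    P.g0 u ((1 : Om ℂ (RQ G s Z)) ⊗ₜ[RQ G s Z] P.e0 Z β) =
      (1 : Om ℂ (RQ G s Y)) ⊗ₜ[RQ G s Y] (P.P.t u).f (P.e Z (∅, β)) := by
  rw [g0_apply, incQ_tmul, e0_val, P_one]

theorem spW' {Z Y : QO D} (u : Ar G s Z Y) (β : BI U.n) : P.bQx Y (∅, β) ∈ Submodule.span (RQ G s Y)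
    {y | ∃ β' : BI U.n, dg (∅, β') = dg (∅, β) ∧ y = P.bT' u (∅, β')} := by
  rw [bQx_eq]
  refine one_span ?_ (P.t_ord' u β)
  rintro _ ⟨β', -, h1, rfl⟩
  exact ⟨β', by simp only [dg, h1], (P.bT'_eq _ _).symm⟩

theorem spR' {Z Y : QO D} (u : Ar G s Z Y) (β : BI U.n) : P.bT' u (∅, β) ∈
    Submodule.span (Om ℂ (RQ G s Y)) (Set.range fun β : BI U.n => P.bQx Y (∅, β)) := by
  rw [bT'_eq]
  refine one_span' ?_ (P.t_S0 u _ (P.e_S0 _ β))
  rintro _ ⟨β', rfl⟩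
  exact ⟨β', P.bQx_eq _ _⟩

/-- The data of the retraction. -/
def rtG {Z X W : QO D} (l : Ar G s X W) (r : Ar G s Z W) (hl : Fib l) (h1 : qh l = 1)
    (dl : (QS D G s).dl l = 1) (dr : (QS D G s).dl r = 1) :
    RT (qf l) (qf r) ((K.gs D s).θ r) (P.σ0 Z) (P.σ X) (P.σ W) (BI U.n) where
  dg β := dg (∅, β)
  e0 := (P.fr0 Z).e
  e0_gr := (P.fr0 Z).e_gr
  bX := P.bQx X
  bW := P.bQx W
  bR := P.bT' r
  bX_gr γ := dg_eq γ ▸ (P.fr X).e_gr γ
  hX F η n h := (P.fr X).mem_hmg fun (γ : Finset (Fin 3) × BI U.n) =>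
    (congrArg (fun k => η (P.bQx X γ) ∈ F.M.gr (k + n)) (dg_eq γ)).mp (h γ)
  hW F η n h := (P.fr W).mem_hmg fun (γ : Finset (Fin 3) × BI U.n) =>
    (congrArg (fun k => η (P.bQx W γ) ∈ F.M.gr (k + n)) (dg_eq γ)).mp (h γ)
  Pl := P.P.gt l
  Pl_smul := P.P.gt_smul l
  Pl_d x := (P.P.gt_d l x).trans (by rw [eta0 dl, zero_smul, sub_zero])
  Pl_s x := by rw [P.gt_one h1, P.gt_one h1, σ_P]
  Pl_b γ := by
    rw [P.gt_one h1, bQx_eq, bQx_eq, P_one]
    exact congrArg _ (P.t_one l hl h1 γ)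
  G0 := P.g0 r
  G0_smul w x := (congrArg (P.P.P r) (map_smul (P.incQ _) w x)).trans (P.P.P_smul r w _)
  G0_s x := (P.σ_P _ _).trans (congrArg (P.P.P r) (P.incQ_s _ x).symm)
  G0_e β := (congrArg (P.g0 r) (P.fr0_e _ β)).trans ((P.g0_one _ β).trans (P.bT'_eq _ _).symm)
  G0_gr m x hx := P.P.P_mem r (by
    have h := P.incQ_mem _ m x hx
    rwa [add_zero] at h)
  Λ := lam P.P r
  Λ_smul := lam_smul P.P r
  Λ_Pl x := ⟨_, (congrArg (lam P.P r) (P.gt_one h1 x)).trans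
    ((lam_P P.P r l ((congrArg (adm G) h1).trans K.adm_one) x).trans
      (Finset.sum_congr rfl fun a _ => congrArg _ (P.gt_one h1 _).symm))⟩
  G0_d x := (P.P.D_P r _).trans (by
    rw [eta0 dr, zero_smul, sub_zero]
    exact congrArg _ (P.incQ_d _ x).symm)
  E := EL P.P r
  E_d := P.P.D_E r
  E_gr _ _ h := P.P.E_mem r h
  E_s := P.σ_E r
  E_b β := (congrArg (EL P.P r) (P.bQx_eq W _)).trans
    ((eE_e (P.P.i_i _) ((K.gs D s).θ_mem r) (fun S => P.e W (S, β))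
      fun a S => P.i_ins _ a S β).trans
      (Finset.sum_congr rfl fun S _ => congrArg _ (P.bQx_eq W _).symm))
  spW := P.spW' r
  spR := P.spR' r

end PD

end

end Vale.Agent.P286EX
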