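import Vale.Agent.P286EB.Rin
import Vale.Agent.P286EC.Avk
import Vale.Agent.P286EXV.Lev

/-!
# The retraction on the totals
-/

set_option linter.all false

namespace Vale.Agent.P286EX

open CategoryTheory TensorProduct Vale.Agent.P286 Vale.Agent.P286.St Vale.Agent.P286.H847
  Vale.Agent.P286.H710 Vale.Agent.P286.H697 Vale.Agent.P286E
open Vale.Agent.P286.H761 (CO CS)
open Vale.Agent.P286.H389 (outM)

noncomputable section

variable {I : Type} [SmallCategory I] {D : CD I} {G : Grp} {s : ℂ} {K : GK G} {xd : XD D}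
  {U : Rep K}

namespace PD

variable (P : PD K xd s U)

section Gen

variable {Z X W X' W' : QO D} {l : Ar G s X W} {r : Ar G s Z W} {hl : Fib l} {h1 : qh l = 1}
  {dl : (QS D G s).dl l = 1} {dr : (QS D G s).dl r = 1}
  {l' : Ar G s X' W'} {r' : Ar G s Z W'} {hl' : Fib l'} {h1' : qh l' = 1}
  {dl' : (QS D G s).dl l' = 1} {dr' : (QS D G s).dl r' = 1}
  {F : OmM (RQ G s X)} {L : OmM (RQ G s W)} {F' : OmM (RQ G s X')} {L' : OmM (RQ G s W')}

theorem rtG_Pl (x : (P.Q X).M.V) : (P.rtG l r hl h1 dl dr).Pl x = P.P.gt l x := rfl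

theorem rtG_G0 (q : (P.Q0 Z).M.V) : (P.rtG l r hl h1 dl dr).G0 q = P.P.P r (P.incQ Z q) := rfl

theorem rtG_EG (q : (P.Q0 Z).M.V) :
    (P.rtG l r hl h1 dl dr).E ((P.rtG l r hl h1 dl dr).G0 q) = P.P.gt r (P.incQ Z q) := rfl

theorem rtG_bX (γ : Finset (Fin 3) × BI U.n) :
    (P.rtG l r hl h1 dl dr).bX γ = P.q1 X (P.e X γ) := P.bQx_eq X γ

theorem rtG_bW (γ : Finset (Fin 3) × BI U.n) :
    (P.rtG l r hl h1 dl dr).bW γ = P.q1 W (P.e W γ) := P.bQx_eq W γ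

theorem rtG_o0 (k : Fin U.n) :
    (P.rtG l r hl h1 dl dr).G0 (P.o0 Z k) = P.q1 W ((P.P.t r).f (P.uv Z k)) := P.g0_one r _

theorem out_o1 (p : (P.P.K Z).M.V) :
    outM (RQ G s W) (P.P.K W).M.V (P.P.gt r (P.q1 Z p)) = (P.P.t r).f p :=
  (P.P.out_gt r _).trans (congrArg _ (P.P.pi_one p))

theorem incQ_o0 (k : Fin U.n) : P.incQ Z (P.o0 Z k) = P.q1 Z (P.uv Z k) :=
  congrArg (P.q1 Z) (P.v0_val Z k)

theorem rtG_io (V : AV (qf l) ((K.gs D s).θ r) F L) (η : (P.Q X).M.V →ₗ[Om ℂ (RQ G s X)] F.M.V)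
    (k : Fin U.n) : OmM.un (((P.rtG l r hl h1 dl dr).io V).f η (P.o0 Z k)) =
      (P.rtG l r hl h1 dl dr).ext V η (P.P.gt r (P.q1 Z (P.uv Z k))) := by
  rw [RT.io_apply, rtG_EG, incQ_o0]

/-- The comparison of the data of two points. -/
def rnG (V : AV (qf l) ((K.gs D s).θ r) F L) (V' : AV (qf l') ((K.gs D s).θ r') F' L')
    (u : Ar G s X X') (c : Ar G s W W') (e1 : l ≫ c = u ≫ l') (e2 : r ≫ c = r')
    (tF : F.M.V → F'.M.V) (k : L.M.V →+ L'.M.V)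
    (k_smul : ∀ (w : Om ℂ (RQ G s W)) y, k (w • y) = Om.pb (qf c) w • k y)
    (k_jk : ∀ y, k (V.jk.f y) = V'.jk.f (tF y)) (k_av : ∀ y, V'.av (k y) = k (V.av y)) :
    RN (P.rtG l r hl h1 dl dr) V (P.rtG l' r' hl' h1' dl' dr') V' where
  f := qf c
  tX := P.P.gt u
  pX := P.P.P u
  tW := (P.P.gt c).toAddMonoidHom
  pW := (P.P.P c).toAddMonoidHom
  tF := tF
  k := k
  tW_smul := P.P.gt_smul c
  pW_smul := P.P.P_smul c
  k_smul := k_smul
  tW_Pl x := (P.P.gt_comp l c x).symm.trans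
    ((congrArg (fun v => P.P.gt v x) e1).trans (P.P.gt_comp u l' x))
  pW_Pl x := (congrArg (P.P.P c) (P.gt_one h1 x)).trans ((P.P.P_comp l c x).symm.trans
    ((congrArg (fun v => P.P.P v x) e1).trans
      ((P.P.P_comp u l' x).trans (P.gt_one h1' _).symm)))
  tW_G0 q := by
    rw [rtG_EG, rtG_EG]
    exact (P.P.gt_comp r c (P.incQ Z q)).symm.trans (congrArg (fun v => P.P.gt v (P.incQ Z q)) e2)
  pW_G0 q := (P.P.P_comp r c (P.incQ Z q)).symm.trans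
    (congrArg (fun v => P.P.P v (P.incQ Z q)) e2)
  k_jk := k_jk
  k_av := k_av

end Gen

variable (H : HG (K.gs D s)) {i : I}

/-- The data of the retraction at a point of the fibre category. -/
def rtF (X : FB D G s i) : RT (qf (inl K s X.ob)) (qf (FB.wr K xd X))
    ((K.gs D s).θ (FB.wr K xd X)) (P.σ0 (Zo xd i)) (P.σ X.ob) (P.σ (cop K X.ob)) (BI U.n) :=
  P.rtG (inl K s X.ob) (FB.wr K xd X) ⟨rfl, rfl⟩ rfl (dl_inL _) (dl_inR xd X.ob)

variable (xd) in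
/-- The averaging data at a point of the fibre category. -/
def avF (X : FB D G s i) :
    AV (qf (inl K s X.ob)) ((K.gs D s).θ (FB.wr K xd X)) (H.F X.ob) (H.KV X.ob) := H.avK xd X.ob

theorem avF_jk (X : FB D G s i) : (avF xd H X).jk = H.jk X.ob := rfl

theorem avF_c (X : FB D G s i) : (avF xd H X).c = H.kc X.ob := rfl

theorem avF_av (X : FB D G s i) (z : (H.KV X.ob).M.V) : (avF xd H X).av z = H.kav X.ob z :=
  H.avK_av xd z

/-- The comparison along an arrow of the fibre category. -/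
def rnF {X Y : FB D G s i} (u : X ⟶ Y) : RN (P.rtF X) (avF xd H X) (P.rtF Y) (avF xd H Y) :=
  P.rnG (avF xd H X) (avF xd H Y) (FB.ar u) (copM K (FB.ar u)) (inl_copM K _) (FB.wr_ar xd u)
    (H.ft (FB.ar u)) (H.kvt (FB.ar u)).toAddMonoidHom (H.kvt_smul (FB.ar u))
    (fun y => by rw [avF_jk, avF_jk]; exact H.kvt_jk (FB.ar u) y)
    fun y => by rw [avF_av, avF_av]; exact H.kav_kvt (FB.ar u) y

theorem rtF_io (X : FB D G s i) (η : (P.Q X.ob).M.V →ₗ[Om ℂ (RQ G s X.ob)] (H.F X.ob).M.V)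
    (k : Fin U.n) : OmM.un (((P.rtF X).io (avF xd H X)).f η (P.o0 (Zo xd i) k)) =
      (P.rtF X).ext (avF xd H X) η (P.P.gt (FB.wr K xd X) (P.q1 _ (P.uv _ k))) :=
  P.rtG_io (avF xd H X) η k

/-- The complex of maps from the generator. -/
abbrev lvF (X : FB D G s i) : GD := Hm (P.σ X.ob) (H.F X.ob)

/-- The map `ι` at a point. -/
def ioF (X : FB D G s i) : GD.Hom (P.lvF H X) ((H.MK xd (P.σ0 (Zo xd i))).obj X) :=
  (P.rtF X).io (avF xd H X)

/-- The map `r` at a point. -/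
def rF (X : FB D G s i) : GD.Hom ((H.MK xd (P.σ0 (Zo xd i))).obj X) (P.lvF H X) :=
  (P.rtF X).rt (avF xd H X)

theorem rF_ioF (X : FB D G s i) (η : (P.lvF H X).V) : (P.rF H X).f ((P.ioF H X).f η) = η :=
  (P.rtF X).rt_io (avF xd H X) η

theorem ioF_nat {X Y : FB D G s i} (u : X ⟶ Y) {η : (P.lvF H X).V} {η' : (P.lvF H Y).V}
    (h : ∀ q, η' (P.P.gt (FB.ar u) q) = H.ft (FB.ar u) (η q)) :
    (P.ioF H Y).f η' = ((H.MK xd (P.σ0 (Zo xd i))).map u).f ((P.ioF H X).f η) :=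
  LinearMap.ext fun q => (P.rnF H u).io_nat h q

theorem rF_nat {X Y : FB D G s i} (u : X ⟶ Y) (ξ : ((H.MK xd (P.σ0 (Zo xd i))).obj X).V)
    {η' : (P.lvF H Y).V} (h : ∀ q, η' (P.P.gt (FB.ar u) q) = H.ft (FB.ar u) ((P.rF H X).f ξ q)) :
    (P.rF H Y).f (((H.MK xd (P.σ0 (Zo xd i))).map u).f ξ) = η' :=
  (P.rnF H u).rt_nat (fun _ => rfl) h

end PD

/-- The levels of a semi-cosimplicial complex are the maps from the generator. -/
structure LV (P : PD K xd s U) (H : HG (K.gs D s)) (i : I) (Φ : CS) where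
  a : ∀ k, GD.Hom (Φ.X k) (P.lvF H ((ptF K xd s i).P k))
  b : ∀ k, GD.Hom (P.lvF H ((ptF K xd s i).P k)) (Φ.X k)
  a_b : ∀ k x, (a k).f ((b k).f x) = x
  b_a : ∀ k x, (b k).f ((a k).f x) = x
  a_fc : ∀ k j, j ≤ k + 1 → ∀ x q,
    (a (k + 1)).f ((Φ.fc k j).f x) (P.P.gt (FB.ar ((ptF K xd s i).fc k j)) q) =
      H.ft (FB.ar ((ptF K xd s i).fc k j)) ((a k).f x q)

namespace LV

variable {P : PD K xd s U} {H : HG (K.gs D s)} {i : I} {Φ : CS} (L : LV P H i Φ)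

/-- The map `ι` on the levels. -/
def ioM : CS.Mor Φ ((H.MK xd (P.σ0 (Zo xd i))).cs (ptF K xd s i)) where
  f k := (P.ioF H _).comp (L.a k)
  face k j hj x := P.ioF_nat H ((ptF K xd s i).fc k j) (L.a_fc k j hj x)

/-- The map `r` on the levels. -/
def rM : CS.Mor ((H.MK xd (P.σ0 (Zo xd i))).cs (ptF K xd s i)) Φ where
  f k := (L.b k).comp (P.rF H _)
  face k j hj ξ := (congrArg (L.b (k + 1)).f (P.rF_nat H ((ptF K xd s i).fc k j) ξ fun q =>
    (L.a_fc k j hj _ q).trans (congrArg (fun η : (P.lvF H _).V => H.ft _ (η q))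
      (L.a_b k _)))).trans (L.b_a _ _)

/-- The map `ι` on the totals. -/
def io : GD.Hom Φ.Tot (P.M1 H i) := L.ioM.tot

/-- The map `r` on the totals. -/
def r : GD.Hom (P.M1 H i) Φ.Tot := L.rM.tot

theorem r_io (x : Φ.Tot.V) : L.r.f (L.io.f x) = x := funext fun k =>
  (L.rM.tot_apply _ k).trans ((congrArg (L.rM.f k).f (L.ioM.tot_apply x k)).trans
    ((congrArg (L.b k).f (P.rF_ioF H _ _)).trans (L.b_a k _)))

/-- The level `0`. -/
def n0 (x : Φ.Tot.V) : (P.Q (Zo xd i)).M.V →ₗ[Om ℂ (RQ G s (Zo xd i))] (H.F (Zo xd i)).M.V :=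
  (L.a 0).f (x 0)

variable (P i) in
/-- The data of the retraction in level `0`. -/
abbrev R0 := P.rtF ((ptF K xd s i).P 0)

variable (xd H i) in
/-- The averaging data in level `0`. -/
abbrev V0 := PD.avF xd H ((ptF K xd s i).P 0)

/-- The extension in level `0`. -/
def ext (x : Φ.Tot.V) : (P.Q (cop K (Zo xd i))).M.V →ₗ[Om ℂ (RQ G s (cop K (Zo xd i)))]
    (H.KV (Zo xd i)).M.V := (R0 P i).ext (V0 xd H i) (L.n0 x)

theorem ext_v (x : Φ.Tot.V) (k : Fin U.n) :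
    L.ext x (P.q1 _ (P.uv _ k)) = (H.jk _).f (L.n0 x (P.q1 _ (P.uv _ k))) :=
  (congrArg (L.ext x) (P.bQx_eq _ _).symm).trans
    (((R0 P i).ext_b (V0 xd H i) (L.n0 x) (∅, 0, k, true)).trans
      (congrArg (fun y => (H.jk _).f (L.n0 x y)) (P.bQx_eq _ _)))

variable (P i) in
/-- The gauge transforms of the generators. -/
def EG (l : Fin U.n) : (P.Q (cop K (Zo xd i))).M.V :=
  P.P.gt (inr K xd s (Zo xd i)) (P.q1 _ (P.uv _ l))

theorem EG_out (l : Fin U.n) : outM (RQ G s (cop K (Zo xd i))) _ (EG P i l) =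
    (P.P.t (inr K xd s (Zo xd i))).f (P.uv _ l) :=
  P.out_o1 _

theorem p1_io (x : Φ.Tot.V) : (P.p1 H i).f (L.io.f x) = ((R0 P i).io (V0 xd H i)).f (L.n0 x) :=
  L.ioM.tot_apply x 0

theorem io_v (x : Φ.Tot.V) (l : Fin U.n) :
    OmM.un ((P.p1 H i).f (L.io.f x) (P.o0 _ l)) = L.ext x (EG P i l) := by
  have h1 : FB.wr K xd ((ptF K xd s i).P 0) = inr K xd s (Zo xd i) := rfl
  have h2 : P.P.gt (FB.wr K xd ((ptF K xd s i).P 0)) (P.q1 _ (P.uv _ l)) = EG P i l :=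
    congrArg (fun v => P.P.gt v (P.q1 _ (P.uv _ l))) h1
  rw [p1_io, ← h2]
  exact P.rtF_io H ((ptF K xd s i).P 0) (L.n0 x) l

variable (P H i) in
/-- The extension of the level `0`. -/
def hat (m : (P.M1 H i).V) : (P.Q (cop K (Zo xd i))).M.V →ₗ[Om ℂ (RQ G s (cop K (Zo xd i)))]
    (H.KV (Zo xd i)).M.V := (R0 P i).hat ((P.p1 H i).f m)

theorem hat_v (m : (P.M1 H i).V) (l : Fin U.n) :
    hat P H i m (P.q1 _ ((P.P.t (inr K xd s (Zo xd i))).f (P.uv _ l))) =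
      OmM.un ((P.p1 H i).f m (P.o0 _ l)) :=
  (congrArg (hat P H i m) (P.g0_one (inr K xd s (Zo xd i)) _).symm).trans
    ((R0 P i).hat_G0 _ _)

theorem r_v (m : (P.M1 H i).V) (k : Fin U.n) :
    L.n0 (L.r.f m) (P.q1 _ (P.uv _ k)) = H.kc (Zo xd i) ∅ (hat P H i m (P.q1 _ (P.uv _ k))) := by
  have h : L.n0 (L.r.f m) = (R0 P i).rL (V0 xd H i) ((P.p1 H i).f m) :=
    (congrArg (L.a 0).f (L.rM.tot_apply m 0)).trans (L.a_b 0 _)
  rw [h]
  exact (congrArg _ (P.bQx_eq _ _).symm).trans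
    (((R0 P i).rL_b (V0 xd H i) _ ∅ (0, k, true)).trans
      (congrArg (fun y => H.kc (Zo xd i) ∅ (hat P H i m y)) (P.bQx_eq _ _)))

end LV

end

end Vale.Agent.P286EX
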