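import Vale.Agent.P286EF.Ls

/-!
# The function `Θ` of a lattice with an admissible basis
-/

set_option linter.all false

namespace Vale.Agent.P286EB

open Matrix Vale.Agent.P286 Vale.Agent.P286E

noncomputable section

attribute [-instance] HahnSeries.powerSeriesAlgebra

variable {A B S : Type} [CommRing A] [CommRing B] [CommRing S] {N : ℕ}

/-- The inclusion of the level `0`. -/
def lv (N : ℕ) (S : Type) [CommRing S] : (Fin N → S) →ₗ[S] Qm N S :=
  Fintype.linearCombination S fun i => Finsupp.single (0, i) 1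

/-- The projection to the level `0`. -/
def pr (N : ℕ) (S : Type) [CommRing S] : Qm N S →ₗ[S] (Fin N → S) :=
  LinearMap.pi fun i => Finsupp.lapply (0, i)

theorem pr_apply (z : Qm N S) (i : Fin N) : pr N S z i = z (0, i) := rfl

theorem lv_zero (u : Fin N → S) (i : Fin N) : lv N S u (0, i) = u i := by
  rw [lv, Fintype.linearCombination_apply, Finsupp.finsetSum_apply, Finset.sum_eq_single i]
  · simp
  · intro j _ hj
    simp [hj]
  · simp

theorem lv_succ (u : Fin N → S) {p : ℕ × Fin N} (hp : p.1 ≠ 0) : lv N S u p = 0 := by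
  rw [lv, Fintype.linearCombination_apply, Finsupp.finsetSum_apply]
  refine Finset.sum_eq_zero fun j _ => ?_
  rw [Finsupp.smul_apply, Finsupp.single_eq_of_ne fun h => hp (congrArg Prod.fst h), smul_zero]

theorem pr_lv (u : Fin N → S) : pr N S (lv N S u) = u := funext fun i => lv_zero u i

theorem q_ext {z w : Qm N S} (h0 : ∀ i, z (0, i) = w (0, i)) (h1 : ∀ p, p.1 ≠ 0 → z p = w p) :
    z = w := by
  ext ⟨k, i⟩
  by_cases h : k = 0
  · subst h; exact h0 i
  · exact h1 _ h

theorem finRank_lv (φ : Qm N S →ₗ[S] (Fin N → S)) : FinRank (lv N S ∘ₗ φ) :=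
  ⟨{0} ×ˢ Finset.univ, fun x p hp => lv_succ _ fun h =>
    hp (Finset.mem_product.2 ⟨Finset.mem_singleton.2 h, Finset.mem_univ _⟩)⟩

theorem fdet_lv (φ : Qm N S →ₗ[S] (Fin N → S)) :
    fdet (1 + lv N S ∘ₗ φ) = (1 + LinearMap.toMatrix' (φ ∘ₗ lv N S)).det := by
  rw [fdet_one_add]

theorem fr_add {φ ψ : Module.End S (Qm N S)} (h : FinRank (φ - 1)) (hψ : FinRank ψ) :
    FinRank (φ + ψ - 1) := by
  have e : φ + ψ - 1 = (φ - 1) + ψ := LinearMap.ext fun x => by
    simp only [LinearMap.sub_apply, LinearMap.add_apply]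
    abel
  rw [e]
  exact h.add hψ

theorem fr_one : FinRank ((1 : Module.End S (Qm N S)) - 1) :=
  ⟨∅, fun x i _ => by simp⟩

theorem fr_conj {φ α β : Module.End S (Qm N S)} (h : FinRank (φ - 1)) (e : α * β = 1) :
    FinRank (α * φ * β - 1) := by
  have e2 : α * φ * β - 1 = α * (φ - 1) * β := LinearMap.ext fun x => by
    have := LinearMap.congr_fun e x
    simp only [LinearMap.sub_apply, Module.End.mul_apply, Module.End.one_apply, map_sub] at this ⊢
    rw [this]
  rw [e2]
  exact (h.mul_left _).mul_right _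

/-- Constant coefficients. -/
def cq (z : Qm N A) : Qm N (Ls A) := z.mapRange HahnSeries.C (map_zero _)

theorem cq_apply (z : Qm N A) (p : ℕ × Fin N) : cq z p = HahnSeries.C (z p) := rfl

/-- The vector with the components of `w` at the level `0` and its polar part at the other
levels. -/
def ex (w : Fin N → Ls A) : Qm N (Ls A) :=
  cq (pol N A w) + lv N (Ls A) (w - pr N _ (cq (pol N A w)))

theorem ex_zero (w : Fin N → Ls A) (i : Fin N) : ex w (0, i) = w i := by
  rw [ex, Finsupp.add_apply, lv_zero, Pi.sub_apply, pr_apply, add_sub_cancel]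

theorem ex_succ (w : Fin N → Ls A) {p : ℕ × Fin N} (hp : p.1 ≠ 0) :
    ex w p = HahnSeries.C (pol N A w p) := by
  rw [ex, Finsupp.add_apply, lv_succ _ hp, add_zero, cq_apply]

theorem ex_add (u w : Fin N → Ls A) : ex (u + w) = ex u + ex w :=
  q_ext (fun i => by rw [Finsupp.add_apply, ex_zero, ex_zero, ex_zero, Pi.add_apply])
    fun p hp => by
      rw [Finsupp.add_apply, ex_succ _ hp, ex_succ _ hp, ex_succ _ hp, map_add, Finsupp.add_apply,
        map_add]

theorem ex_smul (a : A) (w : Fin N → Ls A) : ex (a • w) = (HahnSeries.C a : Ls A) • ex w :=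
  q_ext (fun i => by rw [Finsupp.smul_apply, ex_zero, ex_zero, Pi.smul_apply, smul_eq_mul, C_mul])
    fun p hp => by
      rw [Finsupp.smul_apply, ex_succ _ hp, ex_succ _ hp, map_smul, Finsupp.smul_apply,
        smul_eq_mul, smul_eq_mul, map_mul]

theorem ex_lm (f : A →+* B) (w : Fin N → Ls A) :
    ex (lm f ∘ w) = (ex w).mapRange (lm f) (map_zero _) :=
  q_ext (fun i => by rw [Finsupp.mapRange_apply, ex_zero, ex_zero]; rfl) fun p hp => by
    rw [Finsupp.mapRange_apply, ex_succ _ hp, ex_succ _ hp, lm_C]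
    rfl

theorem ex_of_ord {w : Fin N → Ls A} (h : ∀ i, Ord (-1) (w i)) : ex w = lv N (Ls A) w :=
  q_ext (fun i => by rw [ex_zero, lv_zero]) fun p hp => by
    rw [ex_succ _ hp, lv_succ _ hp, pol_apply, h _ _ (by omega), map_zero]

/-- The operator with the columns `ex (v p)`. -/
def tk (v : ℕ × Fin N → Fin N → Ls A) : Module.End (Ls A) (Qm N (Ls A)) :=
  Finsupp.linearCombination (Ls A) fun p => ex (v p)

/-- The function `Θ`: the determinant of the Pluecker vector of `H⁰(V(o))`. -/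
def Th (v : ℕ × Fin N → Fin N → Ls A) : Ls A := fdet (tk v)

theorem tk_single (v : ℕ × Fin N → Fin N → Ls A) (p : ℕ × Fin N) :
    tk v (Finsupp.single p 1) = ex (v p) := by
  rw [tk, Finsupp.linearCombination_single, one_smul]

theorem tk_cq (v : ℕ × Fin N → Fin N → Ls A) (z : Qm N A) : tk v (cq z) = ex (lin v z) := by
  induction z using Finsupp.induction_linear with
  | zero =>
    have h := ex_smul (0 : A) (0 : Fin N → Ls A)
    rw [zero_smul, map_zero, zero_smul] at h
    rw [cq, Finsupp.mapRange_zero, map_zero, map_zero, h]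
  | add x y hx hy => rw [cq, Finsupp.mapRange_add (map_add _), map_add, map_add, ex_add, ← hx, ← hy]; rfl
  | single p a =>
    rw [cq, Finsupp.mapRange_single, tk, lin, Finsupp.linearCombination_single,
      Finsupp.linearCombination_single, ex_smul]

theorem tk_eq (v : ℕ × Fin N → Fin N → Ls A) : ∃ φ : Qm N (Ls A) →ₗ[Ls A] (Fin N → Ls A),
    tk v = bc HahnSeries.C (pol N A ∘ₗ lin v) + lv N (Ls A) ∘ₗ φ :=
  ⟨Finsupp.linearCombination (Ls A) fun p => v p - pr N _ (cq (pol N A (v p))),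
    end_ext_single fun p => by
      rw [tk_single, LinearMap.add_apply, bc_single, LinearMap.comp_apply, LinearMap.comp_apply,
        lin_single, Finsupp.linearCombination_single, one_smul]
      rfl⟩

theorem tk_fin {v : ℕ × Fin N → Fin N → Ls A} (h : FinRank (pol N A ∘ₗ lin v - 1)) :
    FinRank (tk v - 1) := by
  obtain ⟨φ, hφ⟩ := tk_eq v
  rw [hφ]
  exact fr_add (h.bc_sub_one _) (finRank_lv φ)

theorem tk_comp (v : ℕ × Fin N → Fin N → Ls A) (g : Module.End A (Qm N A)) :
    tk (fam (lin v ∘ₗ g)) = tk v * bc HahnSeries.C g :=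
  end_ext_single fun p => by
    rw [tk_single, Module.End.mul_apply, bc_single]
    exact (tk_cq v _).symm

/-- Change of the basis. -/
theorem Th_comp {v : ℕ × Fin N → Fin N → Ls A} (h : FinRank (pol N A ∘ₗ lin v - 1))
    {g : Module.End A (Qm N A)} (hg : FinRank (g - 1)) :
    Th (fam (lin v ∘ₗ g)) = fdet g • Th v := by
  rw [Th, tk_comp, fdet_mul (tk_fin h) (hg.bc_sub_one _), fdet_bc _ hg, mul_comm, C_mul, Th]

theorem tk_lm (f : A →+* B) (v : ℕ × Fin N → Fin N → Ls A) :
    tk (fun p => lm f ∘ v p) = bc (lm f) (tk v) :=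
  end_ext_single fun p => by rw [tk_single, bc_single, tk_single, ex_lm]

/-- Base change. -/
theorem Th_lm (f : A →+* B) {v : ℕ × Fin N → Fin N → Ls A} (h : FinRank (pol N A ∘ₗ lin v - 1)) :
    Th (fun p => lm f ∘ v p) = lm f (Th v) := by
  rw [Th, tk_lm, fdet_bc _ (tk_fin h), Th]

/-- The projection to the positive levels. -/
def hi (N : ℕ) (S : Type) [CommRing S] : Module.End S (Qm N S) := 1 - lv N S ∘ₗ pr N S

theorem hi_zero (z : Qm N S) (i : Fin N) : hi N S z (0, i) = 0 := by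
  change (z - lv N S (pr N S z)) (0, i) = 0
  rw [Finsupp.sub_apply, lv_zero, pr_apply, sub_self]

theorem hi_succ (z : Qm N S) {p : ℕ × Fin N} (hp : p.1 ≠ 0) : hi N S z p = z p := by
  change (z - lv N S (pr N S z)) p = z p
  rw [Finsupp.sub_apply, lv_succ _ hp, sub_zero]

theorem hi_lv (u : Fin N → S) : hi N S (lv N S u) = 0 :=
  q_ext (fun i => hi_zero _ i) fun p hp => by rw [hi_succ _ hp, lv_succ _ hp]; rfl

theorem pr_hi (z : Qm N S) : pr N S (hi N S z) = 0 := funext fun i => hi_zero z i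

theorem hi_hi (z : Qm N S) : hi N S (hi N S z) = hi N S z :=
  q_ext (fun i => by rw [hi_zero, hi_zero]) fun p hp => hi_succ _ hp

theorem lv_add_hi (z : Qm N S) : lv N S (pr N S z) + hi N S z = z := add_sub_cancel _ _

theorem hi_ex (w : Fin N → Ls A) : hi N (Ls A) (ex w) = hi N (Ls A) (cq (pol N A w)) :=
  q_ext (fun i => by rw [hi_zero, hi_zero]) fun p hp => by
    rw [hi_succ _ hp, hi_succ _ hp, ex_succ _ hp, cq_apply]

theorem pr_ex (w : Fin N → Ls A) : pr N (Ls A) (ex w) = w := funext fun i => ex_zero w i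

theorem ord_std (i j : Fin N) : Ord (-1) (std N A (0, i) j) := by
  rw [std]
  by_cases h : j = i
  · rw [h, Pi.single_eq_same]; exact Ord.single _ _
  · rw [Pi.single_eq_of_ne h]; exact Ord.zero _

theorem hi_pa_lv {a : Matrix (Fin N) (Fin N) (Ls A)} (ha : IntM a) (u : Fin N → Ls A) :
    hi N (Ls A) (bc HahnSeries.C (pa a) (lv N (Ls A) u)) = 0 := by
  rw [lv, Fintype.linearCombination_apply, map_sum, map_sum]
  refine Finset.sum_eq_zero fun i _ => ?_
  rw [map_smul, map_smul]
  refine smul_eq_zero_of_right _ (q_ext (fun i => hi_zero _ i) fun p hp => ?_)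
  rw [hi_succ _ hp, bc_apply_single]
  change HahnSeries.C (pol N A (a *ᵥ lin _ _) p) = 0
  rw [lin_single, pol_apply, ha.mulVec (ord_std i) _ _ (by omega), map_zero]

theorem hi_pa_hi {a : Matrix (Fin N) (Fin N) (Ls A)} (ha : IntM a) (z : Qm N (Ls A)) :
    hi N (Ls A) (bc HahnSeries.C (pa a) (hi N (Ls A) z)) =
      hi N (Ls A) (bc HahnSeries.C (pa a) z) := by
  conv_rhs => rw [← lv_add_hi z, map_add, map_add, hi_pa_lv ha, zero_add]

/-- The action of an integral matrix on the extended vectors. -/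
def ba (a : Matrix (Fin N) (Fin N) (Ls A)) : Module.End (Ls A) (Qm N (Ls A)) :=
  lv N (Ls A) ∘ₗ a.mulVecLin ∘ₗ pr N (Ls A) + hi N (Ls A) ∘ₗ bc HahnSeries.C (pa a) ∘ₗ hi N (Ls A)

theorem ba_apply (a : Matrix (Fin N) (Fin N) (Ls A)) (z : Qm N (Ls A)) : ba a z =
    lv N (Ls A) (a *ᵥ pr N (Ls A) z) + hi N (Ls A) (bc HahnSeries.C (pa a) (hi N (Ls A) z)) := rfl

theorem pr_ba (a : Matrix (Fin N) (Fin N) (Ls A)) (z : Qm N (Ls A)) :
    pr N (Ls A) (ba a z) = a *ᵥ pr N (Ls A) z := by
  rw [ba_apply, map_add, pr_lv, pr_hi, add_zero]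

theorem hi_ba {a : Matrix (Fin N) (Fin N) (Ls A)} (ha : IntM a) (z : Qm N (Ls A)) :
    hi N (Ls A) (ba a z) = hi N (Ls A) (bc HahnSeries.C (pa a) z) := by
  rw [ba_apply, map_add, hi_lv, zero_add, hi_hi, hi_pa_hi ha]

theorem q_ext' {z w : Qm N S} (h0 : pr N S z = pr N S w) (h1 : hi N S z = hi N S w) : z = w := by
  rw [← lv_add_hi z, h0, h1, lv_add_hi]

theorem ba_mul {a : Matrix (Fin N) (Fin N) (Ls A)} (ha : IntM a)
    {b : Matrix (Fin N) (Fin N) (Ls A)} (hb : IntM b) : ba a * ba b = ba (a * b) :=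
  LinearMap.ext fun z => q_ext'
    (by rw [Module.End.mul_apply, pr_ba, pr_ba, pr_ba, mulVec_mulVec])
    (by rw [Module.End.mul_apply, hi_ba ha, ← hi_pa_hi ha, hi_ba hb, hi_pa_hi ha,
      hi_ba (ha.mul hb), pa_mul ha, bc_mul, Module.End.mul_apply])

theorem ba_one : ba (1 : Matrix (Fin N) (Fin N) (Ls A)) = 1 :=
  LinearMap.ext fun z => q_ext' (by rw [pr_ba, one_mulVec]; rfl)
    (by rw [hi_ba IntM.one, pa_one, bc_one])

theorem ba_ex {a : Matrix (Fin N) (Fin N) (Ls A)} (ha : IntM a) (w : Fin N → Ls A) :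
    ba a (ex w) = ex (a *ᵥ w) :=
  q_ext' (by rw [pr_ba, pr_ex, pr_ex])
    (by rw [hi_ba ha, ← hi_pa_hi ha, hi_ex, hi_pa_hi ha, hi_ex, cq, bc_mapRange, pa_pol ha]; rfl)

theorem tk_act {a : Matrix (Fin N) (Fin N) (Ls A)} (ha : IntM a)
    (v : ℕ × Fin N → Fin N → Ls A) : tk (fun p => a *ᵥ v p) = ba a * tk v :=
  end_ext_single fun p => by rw [tk_single, Module.End.mul_apply, tk_single, ba_ex ha]

/-- The constant term. -/
def c0 (A : Type) [CommRing A] : Oo A →+* A where
  toFun w := w.1.coeff 0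
  map_zero' := rfl
  map_one' := HahnSeries.coeff_single_same _ _
  map_add' _ _ := rfl
  map_mul' u w := by
    change (u.1 * w.1).coeff 0 = _
    rw [HahnSeries.coeff_mul]
    by_cases h : (0, 0) ∈ Finset.antidiagonal u.1.isPWO_support w.1.isPWO_support 0
    · refine Finset.sum_eq_single_of_mem _ h fun p hp hne => ?_
      have h1 : p.1 + p.2 = 0 := (Finset.mem_antidiagonal.1 hp).2.2
      by_cases h2 : p.1 < 0
      · rw [u.2 _ h2, zero_mul]
      · have h3 : p.1 ≠ 0 := fun h3 => hne (Prod.ext h3 (by change p.2 = 0; omega))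
        rw [w.2 p.2 (by omega), mul_zero]
    · have h0 : u.1.coeff 0 * w.1.coeff 0 = 0 := by
        by_contra h0
        exact h (Finset.mem_antidiagonal.2 ⟨left_ne_zero_of_mul h0, right_ne_zero_of_mul h0, rfl⟩)
      rw [h0]
      refine Finset.sum_eq_zero fun p hp => ?_
      have h1 : p.1 + p.2 = 0 := (Finset.mem_antidiagonal.1 hp).2.2
      by_cases h2 : p.1 < 0
      · rw [u.2 _ h2, zero_mul]
      · by_cases h3 : p.1 = 0
        · exact absurd ((Prod.ext h3 (by change p.2 = 0; omega) : p = (0, 0)) ▸ hp) h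
        · rw [w.2 p.2 (by omega), mul_zero]

theorem det_coeff {n : Type} [Fintype n] [DecidableEq n] {a : Matrix n n (Ls A)} (ha : IntM a) :
    a.det.coeff 0 = (a.map fun w => w.coeff 0).det := by
  obtain ⟨b, rfl⟩ := ha.lift
  rw [← RingHom.mapMatrix_apply, ← RingHom.map_det]
  exact RingHom.map_det (c0 A) b

theorem pa_coeff {b : Matrix (Fin N) (Fin N) (Ls A)} (i j : Fin N) :
    pa b (Finsupp.single (0, j) 1) (0, i) = (b i j).coeff 0 := by
  change pol N A (b *ᵥ lin _ _) _ = _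
  rw [lin_single, pol_apply, std, mulVec_single]
  change (b i j * tp A (-(((0 : ℕ) : ℤ) + 1))).coeff (-(((0 : ℕ) : ℤ) + 1)) = _
  rw [mul_comm, coeff_tp_mul, sub_self]

theorem lv_single (j : Fin N) : lv N S (Pi.single j 1) = Finsupp.single (0, j) 1 := by
  rw [lv, Fintype.linearCombination_apply_single, one_smul]

theorem fdet_ba {a b : Matrix (Fin N) (Fin N) (Ls A)} (ha : IntM a) (h : a * b = 1) :
    FinRank (ba a * bc HahnSeries.C (pa b) - 1) ∧ fdet (ba a * bc HahnSeries.C (pa b)) =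
      a.det * HahnSeries.C (b.map fun w => w.coeff 0).det := by
  have e : ba a * bc HahnSeries.C (pa b) = 1 + lv N (Ls A) ∘ₗ
      (a.mulVecLin ∘ₗ pr N (Ls A) ∘ₗ bc HahnSeries.C (pa b) - pr N (Ls A)) :=
    LinearMap.ext fun z => q_ext'
      (by
        rw [Module.End.mul_apply, pr_ba, LinearMap.add_apply, map_add, LinearMap.comp_apply, pr_lv]
        exact (add_sub_cancel _ _).symm)
      (by
        rw [Module.End.mul_apply, hi_ba ha, ← Module.End.mul_apply (bc _ _), ← bc_mul, ← pa_mul ha,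
          h, pa_one, bc_one, LinearMap.add_apply, map_add, LinearMap.comp_apply, hi_lv, add_zero])
  refine ⟨by rw [e]; exact fr_add fr_one (finRank_lv _), ?_⟩
  rw [e, fdet_lv, RingHom.map_det, ← det_mul]
  congr 1
  ext1 i j
  rw [Matrix.add_apply, LinearMap.toMatrix'_apply, LinearMap.comp_apply, LinearMap.sub_apply, pr_lv,
    lv_single, Pi.sub_apply, Matrix.one_apply, Pi.single_apply, add_sub_cancel, Matrix.mul_apply]
  change ∑ k, a i k * bc HahnSeries.C (pa b) (Finsupp.single (0, j) 1) (0, k) = _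
  refine Finset.sum_congr rfl fun k _ => ?_
  rw [bc_apply_single, pa_coeff]
  rfl

/-- The action of `SL_N(A[[t]])`. -/
theorem Th_act {a b : Matrix (Fin N) (Fin N) (Ls A)} (ha : IntM a) (hb : IntM b) (h : a * b = 1)
    (hd : a.det = 1) {v : ℕ × Fin N → Fin N → Ls A} (hv : FinRank (pol N A ∘ₗ lin v - 1)) :
    Th (fam (act a ∘ₗ lin v ∘ₗ pa b)) = Th v := by
  have h' : b * a = 1 := mul_eq_one_comm.1 h
  have e : fam (act a ∘ₗ lin v ∘ₗ pa b) = fun p => a *ᵥ fam (lin v ∘ₗ pa b) p := rfl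
  let u : (Module.End (Ls A) (Qm N (Ls A)))ˣ :=
    ⟨ba a, ba b, by rw [ba_mul ha hb, h, ba_one], by rw [ba_mul hb ha, h', ba_one]⟩
  have hu := fdet_conj u (tk_fin hv)
  have hf : FinRank (ba a * tk v * ba b - 1) := fr_conj (tk_fin hv) u.3
  have e3 : ba a * (tk v * bc HahnSeries.C (pa b)) =
      ba a * tk v * ba b * (ba a * bc HahnSeries.C (pa b)) := by
    rw [mul_assoc, ← mul_assoc (ba b), ba_mul hb ha, h', ba_one, one_mul, mul_assoc]
  have hdb : b.det = 1 := by rw [← one_mul b.det, ← hd, ← det_mul, h, det_one]; exact hd.symm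
  rw [e, Th, tk_act ha, tk_comp, e3, fdet_mul hf (fdet_ba ha h).1, (fdet_ba ha h).2, hd,
    ← det_coeff hb, hdb]
  refine Eq.trans ?_ hu
  rw [show (1 : Ls A).coeff 0 = 1 from HahnSeries.coeff_single_same _ _, map_one, mul_one, mul_one]
  rfl

end

end Vale.Agent.P286EB
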